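import Vale.Agent.P270.Torus.Theta

open Complex Matrix

namespace Vale.Agent.P270

variable {g : ℕ}

/-- T0': an abelian variety has a line bundle with a positive definite form. -/
theorem Torus.IsAbelian.exists_ample {T : Torus g} (hT : T.IsAbelian) :
    ∃ (N : Factor T) (c : ℝ), 0 < c ∧ ∀ x, c * ‖x‖ ^ 2 ≤ N.q x := by
  classical
  obtain ⟨H, hH, hpos, hint⟩ := hT
  choose E hE using hint
  set B : (Fin g → ℂ) → (Fin g → ℂ) → ℂ := fun x y => star x ⬝ᵥ (H *ᵥ y) with hB
  have hBal : ∀ x x' y, B (x + x') y = B x y + B x' y := by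
    intro x x' y
    simp only [hB, star_add, add_dotProduct]
  have hBar : ∀ x y y', B x (y + y') = B x y + B x y' := by
    intro x y y'
    simp only [hB, mulVec_add, dotProduct_add]
  have hBsl : ∀ (t : ℂ) x y, B (t • x) y = star t * B x y := by
    intro t x y
    simp only [hB, star_smul, smul_dotProduct, smul_eq_mul]
  have hBsr : ∀ (t : ℂ) x y, B x (t • y) = t * B x y := by
    intro t x y
    simp only [hB, mulVec_smul, dotProduct_smul, smul_eq_mul]
  have hBconj : ∀ x y, B y x = (starRingEnd ℂ) (B x y) := by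
    intro x y
    simp only [hB]
    change _ = star (star x ⬝ᵥ (H *ᵥ y))
    rw [star_dotProduct, star_mulVec, hH.eq, ← dotProduct_mulVec]
  have hBsuml : ∀ (s : Finset (Fin (2 * g))) (f : Fin (2 * g) → Fin g → ℂ) (y : Fin g → ℂ),
      B (∑ i ∈ s, f i) y = ∑ i ∈ s, B (f i) y := by
    intro s f y
    induction s using Finset.induction_on with
    | empty => simp [hB]
    | insert i s hi ih => rw [Finset.sum_insert hi, Finset.sum_insert hi, hBal, ih]
  have hBsumr : ∀ (s : Finset (Fin (2 * g))) (f : Fin (2 * g) → Fin g → ℂ) (x : Fin g → ℂ),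
      B x (∑ i ∈ s, f i) = ∑ i ∈ s, B x (f i) := by
    intro s f x
    induction s using Finset.induction_on with
    | empty => simp [hB]
    | insert i s hi ih => rw [Finset.sum_insert hi, Finset.sum_insert hi, hBar, ih]
  have hvec : ∀ u, T.vec u = ∑ i, (u i : ℂ) • T.per i := by
    intro u
    ext k
    simp [Torus.vec, Finset.sum_apply]
  -- the strictly upper triangular part of the alternating form
  set W : (Fin (2 * g) → ℤ) → (Fin (2 * g) → ℤ) → ℤ := fun u v =>
    ∑ i, ∑ j, if i < j then u i * v j * E i j else 0 with hW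
  have hEanti : ∀ i j, E j i = -E i j := by
    intro i j
    have h1 := hE i j
    have h2 := hE j i
    have h3 := congrArg Complex.im (hBconj (T.per i) (T.per j))
    simp only [hB, conj_im] at h3
    rw [h1, h2] at h3
    exact_mod_cast h3
  have hBim : ∀ u v, (B (T.vec u) (T.vec v)).im = ((W u v - W v u : ℤ) : ℝ) := by
    intro u v
    have h1 : (B (T.vec u) (T.vec v)).im = ((∑ i, ∑ j, u i * v j * E i j : ℤ) : ℝ) := by
      rw [hvec u, hvec v, hBsuml, im_sum]
      push_cast
      refine Finset.sum_congr rfl fun i _ => ?_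
      rw [hBsl, hBsumr]
      have h2 : star ((u i : ℂ)) = (u i : ℂ) := by simp
      rw [h2, Finset.mul_sum, im_sum]
      refine Finset.sum_congr rfl fun j _ => ?_
      rw [hBsr, ← hE i j, ← mul_assoc]
      have h3 : ((u i : ℂ) * (v j : ℂ)) = (((u i * v j : ℤ) : ℝ) : ℂ) := by push_cast; ring
      rw [h3, im_ofReal_mul]
      push_cast
      rfl
    rw [h1]
    congr 1
    have h4 : W v u = ∑ i, ∑ j, if j < i then -(u i * v j * E i j) else 0 := by
      simp only [hW]
      rw [Finset.sum_comm]
      refine Finset.sum_congr rfl fun i _ => Finset.sum_congr rfl fun j _ => ?_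
      by_cases h : j < i
      · rw [if_pos h, if_pos h, hEanti i j]
        ring
      · rw [if_neg h, if_neg h]
    rw [h4]
    simp only [hW]
    rw [← Finset.sum_sub_distrib]
    refine Finset.sum_congr rfl fun i _ => ?_
    rw [← Finset.sum_sub_distrib]
    refine Finset.sum_congr rfl fun j _ => ?_
    rcases lt_trichotomy i j with h | h | h
    · rw [if_pos h, if_neg h.not_gt, sub_zero]
    · subst h
      have h5 : E i i = 0 := by
        have := hEanti i i
        omega
      simp [h5]
    · rw [if_neg h.not_gt, if_pos h]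
      ring
  have hWl : ∀ u u' v, W (u + u') v = W u v + W u' v := by
    intro u u' v
    simp only [hW, ← Finset.sum_add_distrib, Pi.add_apply]
    refine Finset.sum_congr rfl fun i _ => Finset.sum_congr rfl fun j _ => ?_
    split_ifs
    · ring
    · ring
  have hWr : ∀ u v v', W u (v + v') = W u v + W u v' := by
    intro u v v'
    simp only [hW, ← Finset.sum_add_distrib, Pi.add_apply]
    refine Finset.sum_congr rfl fun i _ => Finset.sum_congr rfl fun j _ => ?_
    split_ifs
    · ring
    · ring
  set lf : (Fin (2 * g) → ℤ) → Fin g → ℂ := fun u => (Real.pi : ℂ) • (star (T.vec u) ᵥ* H) with hlf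
  have hlfB : ∀ u y, lf u ⬝ᵥ y = Real.pi * B (T.vec u) y := by
    intro u y
    simp only [hlf, hB]
    rw [smul_dotProduct, smul_eq_mul, ← dotProduct_mulVec]
  set cf : (Fin (2 * g) → ℤ) → ℂ := fun u =>
    Real.pi * B (T.vec u) (T.vec u) / 2 + (W u u : ℂ) * (Real.pi * I) with hcf
  let N : Factor T :=
    { val := fun u z => exp (lf u ⬝ᵥ z + cf u)
      exp_affine := fun u => ⟨lf u, cf u, fun z => rfl⟩
      cocycle := fun u v z => by
        rw [← exp_add, exp_eq_exp_iff_exists_int]
        refine ⟨W v u, ?_⟩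
        rw [dotProduct_add, hlfB, hlfB, hlfB, hlfB]
        simp only [hcf]
        rw [T.vec_add, hBal, hBal, hBar, hBar, hWl, hWr, hWr, hBconj (T.vec u) (T.vec v)]
        have h1 := hBim u v
        have h2 : B (T.vec u) (T.vec v) =
            ((B (T.vec u) (T.vec v)).re : ℂ) + (((W u v - W v u : ℤ) : ℝ) : ℂ) * I := by
          rw [← h1, re_add_im]
        have h3 : (starRingEnd ℂ) (B (T.vec u) (T.vec v)) =
            ((B (T.vec u) (T.vec v)).re : ℂ) - (((W u v - W v u : ℤ) : ℝ) : ℂ) * I := by
          rw [← h1]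
          apply Complex.ext <;> simp
        rw [h3]
        generalize hb : (B (T.vec u) (T.vec v)).re = b at *
        rw [h2]
        push_cast
        ring }
  have hNl : ∀ u, N.l u = lf u := fun u => N.l_eq_of (b := cf u) fun z => rfl
  have hNA : ∀ x y, N.A x y = Real.pi * B x y := by
    intro x y
    let L : (Fin g → ℂ) →ₗ[ℝ] ℂ :=
      { toFun := fun x => Real.pi * B x y
        map_add' := fun a b => by rw [hBal, mul_add]
        map_smul' := fun t a => by
          have h1 : t • a = (t : ℂ) • a := by ext k; simp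
          have h2 : star ((t : ℂ)) = (t : ℂ) := by simp
          rw [h1, hBsl, h2, RingHom.id_apply, Complex.real_smul]
          ring }
    have := T.eq_of_vec (N.Al.flip y) L (fun u => by
      rw [LinearMap.flip_apply, Factor.Al_apply, Factor.A_vec, hNl, hlfB]
      rfl) x
    rwa [LinearMap.flip_apply, Factor.Al_apply] at this
  have hNP : ∀ x, N.P x x = Real.pi * B x x := by
    intro x
    unfold Factor.P
    rw [hNA, hNA, hBsl]
    have h1 : star I = -I := by simp
    rw [h1]
    linear_combination (-(Real.pi * B x x) / 2) * I_mul_I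
  have hNq : ∀ x, N.q x = (B x x).re := by
    intro x
    unfold Factor.q
    rw [hNP, re_ofReal_mul]
    field_simp
  have hNqpos : ∀ x, x ≠ 0 → 0 < N.q x := fun x hx => by
    rw [hNq]
    exact hpos x hx
  have hqc : Continuous N.q := by
    unfold Factor.q
    exact (Complex.continuous_re.comp N.continuous_P_self).div_const _
  have hsc : ∀ (t : ℝ) x, N.q (t • x) = t ^ 2 * N.q x := by
    intro t x
    have h1 : t • x = (t : ℂ) • x := by ext k; simp
    have h2 : star ((t : ℂ)) = (t : ℂ) := by simp
    rw [hNq, hNq, h1, hBsl, hBsr, h2, ← mul_assoc, ← ofReal_mul, re_ofReal_mul]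
    ring
  have hcomp : IsCompact (Metric.sphere (0 : Fin g → ℂ) 1) := isCompact_sphere _ _
  have key : ∃ c : ℝ, 0 < c ∧ ∀ x : Fin g → ℂ, ‖x‖ = 1 → c ≤ N.q x := by
    by_cases hne : (Metric.sphere (0 : Fin g → ℂ) 1).Nonempty
    · obtain ⟨x0, hx0, hmin⟩ := hcomp.exists_isMinOn hne hqc.continuousOn
      rw [mem_sphere_zero_iff_norm] at hx0
      refine ⟨N.q x0, hNqpos x0 ?_, fun x hx => hmin (mem_sphere_zero_iff_norm.mpr hx)⟩
      intro h
      rw [h, norm_zero] at hx0
      exact zero_ne_one hx0
    · exact ⟨1, one_pos, fun x hx => absurd ⟨x, mem_sphere_zero_iff_norm.mpr hx⟩ hne⟩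
  obtain ⟨c, hc, hmin⟩ := key
  refine ⟨N, c, hc, fun x => ?_⟩
  by_cases hx : x = 0
  · subst hx
    rw [N.q_zero]
    simp
  · have hn : 0 < ‖x‖ := norm_pos_iff.mpr hx
    have h1 := hmin ((‖x‖)⁻¹ • x) (by
      rw [norm_smul, norm_inv, norm_norm, inv_mul_cancel₀ hn.ne'])
    have h2 : N.q x = ‖x‖ ^ 2 * N.q ((‖x‖)⁻¹ • x) := by
      rw [← hsc, smul_smul, mul_inv_cancel₀ hn.ne', one_smul]
    rw [h2, mul_comm]
    gcongr

end Vale.Agent.P270
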