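import Vale.Agent.P270.Defs

open Complex

namespace Vale.Agent.P270

variable {g : ℕ}

/-! ### The lattice and real coordinates -/

theorem Torus.vec_add (T : Torus g) (u v : Fin (2 * g) → ℤ) :
    T.vec (u + v) = T.vec u + T.vec v := by
  ext k
  simp only [Torus.vec, Pi.add_apply, Int.cast_add, add_mul, Finset.sum_add_distrib]

theorem Torus.vec_zero' (T : Torus g) : T.vec 0 = 0 := by
  ext k
  simp [Torus.vec]

theorem Torus.vec_neg (T : Torus g) (u : Fin (2 * g) → ℤ) : T.vec (-u) = -T.vec u := by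
  have h := T.vec_add u (-u)
  rw [add_neg_cancel, T.vec_zero'] at h
  exact (neg_eq_of_add_eq_zero_right h.symm).symm

/-- The real linear map `x ↦ ∑ x_i per_i`. -/
noncomputable def Torus.toC (T : Torus g) : (Fin (2 * g) → ℝ) →ₗ[ℝ] (Fin g → ℂ) where
  toFun x := fun k => ∑ i, (x i : ℂ) * T.per i k
  map_add' x y := by
    ext k
    simp [add_mul, Finset.sum_add_distrib]
  map_smul' a x := by
    ext k
    simp [Finset.mul_sum, mul_assoc]

theorem Torus.toC_apply (T : Torus g) (x : Fin (2 * g) → ℝ) (k : Fin g) :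
    T.toC x k = ∑ i, (x i : ℂ) * T.per i k := rfl

theorem Torus.toC_injective (T : Torus g) : Function.Injective T.toC := by
  rw [← LinearMap.ker_eq_bot, LinearMap.ker_eq_bot']
  intro x hx
  ext i
  exact T.indep x (fun k => by rw [← T.toC_apply, hx]; rfl) i

/-- Real coordinates on `ℂ^g` with respect to the periods. -/
noncomputable def Torus.equiv (T : Torus g) : (Fin (2 * g) → ℝ) ≃ₗ[ℝ] (Fin g → ℂ) :=
  LinearEquiv.ofInjectiveOfFinrankEq T.toC T.toC_injective (by
    rw [Module.finrank_pi_fintype, Module.finrank_pi_fintype]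
    simp [Complex.finrank_real_complex, mul_comm])

theorem Torus.equiv_apply (T : Torus g) (x : Fin (2 * g) → ℝ) : T.equiv x = T.toC x := rfl

theorem Torus.equiv_int (T : Torus g) (u : Fin (2 * g) → ℤ) :
    T.equiv (fun i => (u i : ℝ)) = T.vec u := by
  ext k
  rw [T.equiv_apply, T.toC_apply]
  simp [Torus.vec]

theorem Torus.equiv_symm_vec (T : Torus g) (u : Fin (2 * g) → ℤ) :
    T.equiv.symm (T.vec u) = fun i => (u i : ℝ) := by
  rw [← T.equiv_int, LinearEquiv.symm_apply_apply]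


/-! ### The exponents of a factor -/

/-- Two exponentials of affine functions agree only if the linear parts agree. -/
theorem exp_affine_unique {a a' : Fin g → ℂ} {b b' : ℂ}
    (h : ∀ z : Fin g → ℂ, exp (a ⬝ᵥ z + b) = exp (a' ⬝ᵥ z + b')) : a = a' := by
  ext k
  have h1 : ∀ t : ℂ, exp (a k * t + b) = exp (a' k * t + b') := by
    intro t
    have := h (fun j => if j = k then t else 0)
    simpa [dotProduct] using this
  have hd : ∀ (p q : ℂ), HasDerivAt (fun t : ℂ => exp (p * t + q)) (exp (p * 0 + q) * (p * 1)) 0 := by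
    intro p q
    exact (((hasDerivAt_id (0 : ℂ)).const_mul p).add_const q).cexp
  have h2 := hd (a k) b
  have h3 := hd (a' k) b'
  have h4 : (fun t : ℂ => exp (a k * t + b)) = fun t => exp (a' k * t + b') := funext h1
  rw [h4] at h2
  have h5 := h2.unique h3
  have h6 := h1 0
  rw [h6] at h5
  have h7 := mul_left_cancel₀ (exp_ne_zero _) h5
  simpa using h7

variable {T : Torus g}

namespace Factor

variable (N : Factor T)

/-- The linear part of the exponent. -/
noncomputable def l (u : Fin (2 * g) → ℤ) : Fin g → ℂ := (N.exp_affine u).choose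

/-- The constant part of the exponent. -/
noncomputable def c (u : Fin (2 * g) → ℤ) : ℂ := (N.exp_affine u).choose_spec.choose

theorem val_eq (u : Fin (2 * g) → ℤ) (z : Fin g → ℂ) : N.val u z = exp (N.l u ⬝ᵥ z + N.c u) :=
  (N.exp_affine u).choose_spec.choose_spec z

theorem l_eq_of {a : Fin g → ℂ} {b : ℂ} {u : Fin (2 * g) → ℤ}
    (h : ∀ z, N.val u z = exp (a ⬝ᵥ z + b)) : N.l u = a := by
  apply exp_affine_unique (b := N.c u) (b' := b)
  intro z
  rw [← N.val_eq, h]

theorem l_add (u v : Fin (2 * g) → ℤ) : N.l (u + v) = N.l u + N.l v := by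
  apply N.l_eq_of (b := N.l u ⬝ᵥ T.vec v + N.c u + N.c v)
  intro z
  rw [N.cocycle, N.val_eq, N.val_eq, ← exp_add]
  congr 1
  rw [dotProduct_add, add_dotProduct]
  ring

/-- `l` as an additive map. -/
noncomputable def lHom : (Fin (2 * g) → ℤ) →+ (Fin g → ℂ) where
  toFun := N.l
  map_zero' := by
    have := N.l_add 0 0
    rw [add_zero] at this
    exact left_eq_add.mp this
  map_add' := N.l_add

theorem l_zero : N.l 0 = 0 := N.lHom.map_zero

theorem l_sum (u : Fin (2 * g) → ℤ) : N.l u = ∑ i, u i • N.l (Pi.single i 1) := by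
  have h : u = ∑ i, u i • (Pi.single i 1 : Fin (2 * g) → ℤ) := by
    ext j
    simp [Finset.sum_apply, Pi.single_apply]
  conv_lhs => rw [h]
  change N.lHom (∑ i, u i • (Pi.single i 1 : Fin (2 * g) → ℤ)) = _
  rw [map_sum]
  exact Finset.sum_congr rfl fun i _ => map_zsmul _ _ _

/-- The real linear extension of `l`. -/
noncomputable def lam : (Fin g → ℂ) →ₗ[ℝ] (Fin g → ℂ) :=
  (∑ i, (LinearMap.proj i : (Fin (2 * g) → ℝ) →ₗ[ℝ] ℝ).smulRight (N.l (Pi.single i 1))) ∘ₗ
    T.equiv.symm.toLinearMap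

theorem lam_apply (x : Fin g → ℂ) : N.lam x = ∑ i, T.equiv.symm x i • N.l (Pi.single i 1) := by
  simp [lam]

theorem lam_vec (u : Fin (2 * g) → ℤ) : N.lam (T.vec u) = N.l u := by
  rw [lam_apply, T.equiv_symm_vec, N.l_sum]
  refine Finset.sum_congr rfl fun i _ => ?_
  ext k
  simp

/-- The form `A(x,y) = lam x · y`, real linear in `x` and complex linear in `y`. -/
noncomputable def A (x y : Fin g → ℂ) : ℂ := N.lam x ⬝ᵥ y

theorem A_add_left (x x' y : Fin g → ℂ) : N.A (x + x') y = N.A x y + N.A x' y := by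
  simp [A, add_dotProduct]

theorem A_add_right (x y y' : Fin g → ℂ) : N.A x (y + y') = N.A x y + N.A x y' := by
  simp [A, dotProduct_add]

theorem A_smul_left (t : ℝ) (x y : Fin g → ℂ) : N.A (t • x) y = t * N.A x y := by
  simp [A, smul_dotProduct]

theorem A_smul_right (t : ℂ) (x y : Fin g → ℂ) : N.A x (t • y) = t * N.A x y := by
  simp [A, dotProduct_smul]

theorem A_neg_left (x y : Fin g → ℂ) : N.A (-x) y = -N.A x y := by
  simp [A]

theorem A_neg_right (x y : Fin g → ℂ) : N.A x (-y) = -N.A x y := by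
  simp [A]

theorem A_vec (u : Fin (2 * g) → ℤ) (y : Fin g → ℂ) : N.A (T.vec u) y = N.l u ⬝ᵥ y := by
  rw [A, lam_vec]

theorem val_eq_A (u : Fin (2 * g) → ℤ) (z : Fin g → ℂ) :
    N.val u z = exp (N.A (T.vec u) z + N.c u) := by
  rw [A_vec, ← val_eq]

theorem exp_c_add (u v : Fin (2 * g) → ℤ) :
    exp (N.c (u + v)) = exp (N.A (T.vec u) (T.vec v) + N.c u + N.c v) := by
  have h := N.cocycle u v 0
  rw [N.val_eq_A, N.val_eq_A, N.val_eq_A, ← exp_add] at h
  simpa [A, add_assoc] using h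

/-- The commutator form is integral on the lattice. -/
theorem exists_int (u v : Fin (2 * g) → ℤ) :
    ∃ n : ℤ, N.A (T.vec u) (T.vec v) - N.A (T.vec v) (T.vec u) = n * (2 * Real.pi * I) := by
  have h1 := N.exp_c_add u v
  have h2 := N.exp_c_add v u
  rw [add_comm v u, h1] at h2
  obtain ⟨n, hn⟩ := exp_eq_exp_iff_exists_int.mp h2
  refine ⟨n, ?_⟩
  linear_combination hn


end Factor

/-- Two real linear maps that agree on the lattice are equal. -/
theorem Torus.ext_vec (T : Torus g) {M : Type*} [AddCommGroup M] [Module ℝ M]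
    {f f' : (Fin g → ℂ) →ₗ[ℝ] M} (h : ∀ u, f (T.vec u) = f' (T.vec u)) : f = f' := by
  have h1 : f ∘ₗ T.equiv.toLinearMap = f' ∘ₗ T.equiv.toLinearMap := by
    apply LinearMap.pi_ext'
    intro i
    apply LinearMap.ext_ring
    have h2 : (LinearMap.single ℝ (fun _ => ℝ) i) (1 : ℝ) =
        fun j => ((Pi.single i 1 : Fin (2 * g) → ℤ) j : ℝ) := by
      ext j
      by_cases hj : j = i
      · subst hj
        simp
      · simp [hj]
    simp only [LinearMap.comp_apply, LinearEquiv.coe_coe]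
    rw [h2, T.equiv_int]
    exact h _
  have h3 : ∀ x, f x = f' x := by
    intro x
    have := LinearMap.congr_fun h1 (T.equiv.symm x)
    simpa using this
  exact LinearMap.ext h3

theorem Torus.eq_of_vec (T : Torus g) {M : Type*} [AddCommGroup M] [Module ℝ M]
    (f f' : (Fin g → ℂ) →ₗ[ℝ] M) (h : ∀ u, f (T.vec u) = f' (T.vec u)) (x : Fin g → ℂ) :
    f x = f' x := by
  rw [T.ext_vec h]

namespace Factor

variable (N : Factor T)

/-- `A` as a real bilinear map. -/
noncomputable def Al : (Fin g → ℂ) →ₗ[ℝ] (Fin g → ℂ) →ₗ[ℝ] ℂ :=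
  LinearMap.mk₂ ℝ N.A N.A_add_left (fun t x y => by rw [A_smul_left]; simp)
    N.A_add_right (fun t x y => by
      have := N.A_smul_right (t : ℂ) x y
      have h : ((t : ℂ) • y) = t • y := by
        ext k
        simp
      rw [h] at this
      rw [this]
      simp)

theorem Al_apply (x y : Fin g → ℂ) : N.Al x y = N.A x y := rfl

/-- The commutator form is purely imaginary. -/
theorem re_A_sub (x y : Fin g → ℂ) : (N.A x y - N.A y x).re = 0 := by
  have h1 : ∀ u v, (N.A (T.vec u) (T.vec v) - N.A (T.vec v) (T.vec u)).re = 0 := by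
    intro u v
    obtain ⟨n, hn⟩ := N.exists_int u v
    rw [hn]
    simp
  have h2 : ∀ (v : Fin (2 * g) → ℤ) (x : Fin g → ℂ),
      (N.A x (T.vec v) - N.A (T.vec v) x).re = 0 := by
    intro v x
    have := T.eq_of_vec (Complex.reLm ∘ₗ (N.Al.flip (T.vec v) - N.Al (T.vec v))) 0
      (fun u => by simpa [Al_apply] using h1 u v) x
    simpa [Al_apply] using this
  have := T.eq_of_vec (Complex.reLm ∘ₗ (N.Al x - N.Al.flip x)) 0
    (fun u => by simpa [Al_apply] using h2 u x) y
  simpa [Al_apply] using this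

/-- The complex bilinear part of `A`. -/
noncomputable def S (x y : Fin g → ℂ) : ℂ := (N.A x y - I * N.A (I • x) y) / 2

/-- The sesquilinear part of `A` (`π` times the Hermitian form). -/
noncomputable def P (x y : Fin g → ℂ) : ℂ := (N.A x y + I * N.A (I • x) y) / 2

theorem A_eq (x y : Fin g → ℂ) : N.A x y = N.S x y + N.P x y := by
  unfold S P
  ring

theorem I_smul_I_smul (x : Fin g → ℂ) : I • I • x = -x := by
  ext k
  simp only [Pi.smul_apply, smul_eq_mul, Pi.neg_apply]
  linear_combination (x k) * I_mul_I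

theorem S_I_left (x y : Fin g → ℂ) : N.S (I • x) y = I * N.S x y := by
  unfold S
  rw [I_smul_I_smul, A_neg_left]
  linear_combination (N.A (I • x) y) / 2 * I_mul_I

theorem P_I_left (x y : Fin g → ℂ) : N.P (I • x) y = -(I * N.P x y) := by
  unfold P
  rw [I_smul_I_smul, A_neg_left]
  linear_combination (N.A (I • x) y) / 2 * I_mul_I

theorem S_smul_right (t : ℂ) (x y : Fin g → ℂ) : N.S x (t • y) = t * N.S x y := by
  unfold S
  rw [A_smul_right, A_smul_right]
  ring

theorem P_smul_right (t : ℂ) (x y : Fin g → ℂ) : N.P x (t • y) = t * N.P x y := by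
  unfold P
  rw [A_smul_right, A_smul_right]
  ring

theorem S_add_left (x x' y : Fin g → ℂ) : N.S (x + x') y = N.S x y + N.S x' y := by
  unfold S
  rw [smul_add, A_add_left, A_add_left]
  ring

theorem P_add_left (x x' y : Fin g → ℂ) : N.P (x + x') y = N.P x y + N.P x' y := by
  unfold P
  rw [smul_add, A_add_left, A_add_left]
  ring

theorem S_add_right (x y y' : Fin g → ℂ) : N.S x (y + y') = N.S x y + N.S x y' := by
  unfold S
  rw [A_add_right, A_add_right]
  ring

theorem P_add_right (x y y' : Fin g → ℂ) : N.P x (y + y') = N.P x y + N.P x y' := by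
  unfold P
  rw [A_add_right, A_add_right]
  ring

theorem re_SP (x y : Fin g → ℂ) :
    (N.S x y - N.S y x).re = 0 ∧ (N.P x y - N.P y x).re = 0 := by
  have h1 := N.re_A_sub x y
  have h2 := N.re_A_sub (I • x) (I • y)
  have e1 : N.A (I • x) (I • y) - N.A (I • y) (I • x) =
      -(N.S x y - N.S y x) + (N.P x y - N.P y x) := by
    rw [A_eq, A_eq, S_smul_right, S_smul_right, S_I_left, S_I_left, P_smul_right, P_smul_right,
      P_I_left, P_I_left]
    linear_combination (N.S x y - N.S y x - N.P x y + N.P y x) * I_mul_I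
  have e2 : N.A x y - N.A y x = (N.S x y - N.S y x) + (N.P x y - N.P y x) := by
    rw [A_eq, A_eq]
    ring
  rw [e1] at h2
  rw [e2] at h1
  simp only [add_re, neg_re] at h1 h2
  constructor <;> linarith

theorem S_symm (x y : Fin g → ℂ) : N.S x y = N.S y x := by
  have h1 := (N.re_SP x y).1
  have h2 := (N.re_SP (I • x) y).1
  rw [S_I_left, S_smul_right, ← mul_sub] at h2
  simp only [mul_re, I_re, I_im] at h2
  have h3 : N.S x y - N.S y x = 0 := Complex.ext (by simpa using h1) (by simp only [zero_im]; linarith)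
  exact sub_eq_zero.mp h3

theorem P_conj (x y : Fin g → ℂ) : N.P y x = (starRingEnd ℂ) (N.P x y) := by
  have h1 := (N.re_SP x y).2
  have h2 := (N.re_SP (I • x) y).2
  rw [P_I_left, P_smul_right] at h2
  simp only [sub_re, neg_re, mul_re, I_re, I_im] at h1 h2
  apply Complex.ext
  · rw [conj_re]
    linarith
  · rw [conj_im]
    linarith

theorem P_smul_left (t : ℂ) (x y : Fin g → ℂ) :
    N.P (t • x) y = (starRingEnd ℂ) t * N.P x y := by
  rw [N.P_conj y (t • x), P_smul_right, map_mul, ← N.P_conj y x]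

theorem S_smul_left (t : ℂ) (x y : Fin g → ℂ) : N.S (t • x) y = t * N.S x y := by
  rw [S_symm, S_smul_right, S_symm]

/-- The Hermitian quadratic form (first Chern class) of `N`. -/
noncomputable def q (x : Fin g → ℂ) : ℝ := (N.P x x).re / Real.pi

theorem P_self (x : Fin g → ℂ) : N.P x x = ((Real.pi * N.q x : ℝ) : ℂ) := by
  have h := N.P_conj x x
  have him : (N.P x x).im = 0 := by
    have := congrArg Complex.im h
    rw [conj_im] at this
    linarith
  apply Complex.ext
  · rw [ofReal_re, q]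
    field_simp
  · rw [ofReal_im, him]


/-! ### Multiplicativity -/

variable {N}

theorem l_mul_of {N' R : Factor T} (h : ∀ u z, R.val u z = N.val u z * N'.val u z)
    (u : Fin (2 * g) → ℤ) : R.l u = N.l u + N'.l u := by
  apply R.l_eq_of (b := N.c u + N'.c u)
  intro z
  rw [h, val_eq, val_eq, ← exp_add, add_dotProduct]
  congr 1
  ring

theorem l_pow_of {R : Factor T} {k : ℕ} (h : ∀ u z, R.val u z = N.val u z ^ k)
    (u : Fin (2 * g) → ℤ) : R.l u = (k : ℂ) • N.l u := by
  apply R.l_eq_of (b := k * N.c u)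
  intro z
  rw [h, val_eq, ← exp_nat_mul, smul_dotProduct, smul_eq_mul]
  congr 1
  ring

theorem l_inv_of {R : Factor T} (h : ∀ u z, R.val u z = (N.val u z)⁻¹)
    (u : Fin (2 * g) → ℤ) : R.l u = -N.l u := by
  apply R.l_eq_of (b := -N.c u)
  intro z
  rw [h, val_eq, ← exp_neg, neg_dotProduct]
  congr 1
  ring

theorem l_flat {R : Factor T} (h : ∀ u z, R.val u z = R.val u 0) (u : Fin (2 * g) → ℤ) :
    R.l u = 0 := by
  apply R.l_eq_of (b := R.c u)
  intro z
  rw [h, val_eq, dotProduct_zero, zero_dotProduct]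

theorem A_mul_of {N' R : Factor T} (h : ∀ u z, R.val u z = N.val u z * N'.val u z)
    (x y : Fin g → ℂ) : R.A x y = N.A x y + N'.A x y := by
  unfold A
  rw [← add_dotProduct]
  congr 1
  exact T.eq_of_vec R.lam (N.lam + N'.lam) (fun u => by
    rw [LinearMap.add_apply, lam_vec, lam_vec, lam_vec, l_mul_of h]) x

theorem A_pow_of {R : Factor T} {k : ℕ} (h : ∀ u z, R.val u z = N.val u z ^ k)
    (x y : Fin g → ℂ) : R.A x y = k * N.A x y := by
  unfold A
  rw [← smul_eq_mul, ← smul_dotProduct]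
  congr 1
  have h1 := T.eq_of_vec R.lam ((k : ℝ) • N.lam) (fun u => by
    rw [LinearMap.smul_apply, lam_vec, lam_vec, l_pow_of h]
    ext i
    simp) x
  rw [h1]
  ext i
  simp

theorem A_inv_of {R : Factor T} (h : ∀ u z, R.val u z = (N.val u z)⁻¹)
    (x y : Fin g → ℂ) : R.A x y = -N.A x y := by
  unfold A
  rw [← neg_dotProduct]
  congr 1
  exact T.eq_of_vec R.lam (-N.lam) (fun u => by
    rw [LinearMap.neg_apply, lam_vec, lam_vec, l_inv_of h]) x

theorem A_flat {R : Factor T} (h : ∀ u z, R.val u z = R.val u 0) (x y : Fin g → ℂ) :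
    R.A x y = 0 := by
  unfold A
  have h1 := T.eq_of_vec R.lam 0 (fun u => by
    rw [LinearMap.zero_apply, lam_vec, l_flat h]) x
  rw [h1, LinearMap.zero_apply, zero_dotProduct]

theorem q_mul_of {N' R : Factor T} (h : ∀ u z, R.val u z = N.val u z * N'.val u z)
    (x : Fin g → ℂ) : R.q x = N.q x + N'.q x := by
  unfold q P
  rw [A_mul_of h, A_mul_of h, ← add_div, ← add_re]
  congr 2
  ring

theorem q_pow_of {R : Factor T} {k : ℕ} (h : ∀ u z, R.val u z = N.val u z ^ k)
    (x : Fin g → ℂ) : R.q x = k * N.q x := by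
  unfold q P
  rw [A_pow_of h, A_pow_of h]
  have : ((k : ℂ) * N.A x x + I * ((k : ℂ) * N.A (I • x) x)) / 2 =
      ((k : ℝ) : ℂ) * ((N.A x x + I * N.A (I • x) x) / 2) := by
    push_cast
    ring
  rw [this, re_ofReal_mul]
  ring

theorem q_inv_of {R : Factor T} (h : ∀ u z, R.val u z = (N.val u z)⁻¹)
    (x : Fin g → ℂ) : R.q x = -N.q x := by
  unfold q P
  rw [A_inv_of h, A_inv_of h]
  have : (-N.A x x + I * (-N.A (I • x) x)) / 2 = -((N.A x x + I * N.A (I • x) x) / 2) := by
    ring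
  rw [this, neg_re]
  ring

theorem q_flat {R : Factor T} (h : ∀ u z, R.val u z = R.val u 0) (x : Fin g → ℂ) :
    R.q x = 0 := by
  unfold q P
  rw [A_flat h, A_flat h]
  simp

variable (N)

/-! ### Sizes -/

theorem norm_dotProduct_le (a y : Fin g → ℂ) : ‖a ⬝ᵥ y‖ ≤ g * (‖a‖ * ‖y‖) := by
  calc ‖a ⬝ᵥ y‖ = ‖∑ k, a k * y k‖ := rfl
    _ ≤ ∑ k, ‖a k * y k‖ := norm_sum_le _ _
    _ ≤ ∑ _k : Fin g, ‖a‖ * ‖y‖ := Finset.sum_le_sum fun k _ => by
        rw [norm_mul]
        exact mul_le_mul (norm_le_pi_norm a k) (norm_le_pi_norm y k) (norm_nonneg _)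
          (norm_nonneg _)
    _ = g * (‖a‖ * ‖y‖) := by simp

theorem exists_norm_A_le : ∃ C : ℝ, 0 < C ∧ ∀ x y, ‖N.A x y‖ ≤ C * (‖x‖ * ‖y‖) := by
  obtain ⟨C, hC, h⟩ := (LinearMap.toContinuousLinearMap N.lam).bound
  refine ⟨(g + 1) * C, by positivity, fun x y => ?_⟩
  have h1 : ‖N.lam x‖ ≤ C * ‖x‖ := h x
  calc ‖N.A x y‖ ≤ g * (‖N.lam x‖ * ‖y‖) := norm_dotProduct_le _ _
    _ ≤ (g + 1) * ((C * ‖x‖) * ‖y‖) := by gcongr; linarith
    _ = _ := by ring

theorem norm_I_smul (x : Fin g → ℂ) : ‖I • x‖ = ‖x‖ := by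
  rw [norm_smul, norm_I, one_mul]

theorem exists_norm_SP_le : ∃ C : ℝ, 0 < C ∧ ∀ x y, ‖N.S x y‖ ≤ C * (‖x‖ * ‖y‖) ∧
    ‖N.P x y‖ ≤ C * (‖x‖ * ‖y‖) := by
  obtain ⟨C, hC, h⟩ := N.exists_norm_A_le
  refine ⟨C, hC, fun x y => ?_⟩
  have h1 := h x y
  have h2 := h (I • x) y
  rw [norm_I_smul] at h2
  have h3 : ‖I * N.A (I • x) y‖ ≤ C * (‖x‖ * ‖y‖) := by
    rwa [norm_mul, norm_I, one_mul]
  constructor
  · unfold S
    rw [norm_div, Complex.norm_two]
    have := norm_sub_le (N.A x y) (I * N.A (I • x) y)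
    linarith
  · unfold P
    rw [norm_div, Complex.norm_two]
    have := norm_add_le (N.A x y) (I * N.A (I • x) y)
    linarith

theorem exists_q_le : ∃ C : ℝ, 0 < C ∧ ∀ x, |N.q x| ≤ C * ‖x‖ ^ 2 := by
  obtain ⟨C, hC, h⟩ := N.exists_norm_SP_le
  refine ⟨C, hC, fun x => ?_⟩
  have h1 := (h x x).2
  have hpi : (1 : ℝ) ≤ Real.pi := by linarith [Real.two_le_pi]
  have h2 : |(N.P x x).re| ≤ C * ‖x‖ ^ 2 := by
    calc |(N.P x x).re| ≤ ‖N.P x x‖ := abs_re_le_norm _
      _ ≤ C * ‖x‖ ^ 2 := by rw [sq]; exact h1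
  unfold q
  rw [abs_div, abs_of_pos Real.pi_pos]
  calc |(N.P x x).re| / Real.pi ≤ |(N.P x x).re| / 1 :=
        div_le_div_of_nonneg_left (abs_nonneg _) one_pos hpi
    _ ≤ C * ‖x‖ ^ 2 := by rw [div_one]; exact h2

end Factor

end Vale.Agent.P270
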