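import Vale.Agent.P270.MathlibUsed
import Mathlib.Algebra.Module.ZLattice.Summable
import Mathlib.Analysis.SpecialFunctions.Pow.Asymptotics

open Filter Topology

namespace Vale.Agent.P270

/-- The norm of an integer vector as a real vector. -/
theorem norm_intCast_pi {n : ℕ} (u : Fin n → ℤ) : ‖(fun i => (u i : ℝ))‖ = ‖u‖ := by
  rw [Pi.norm_def, Pi.norm_def]
  congr 1

theorem summable_norm_rpow_int (n : ℕ) :
    ∃ r : ℝ, r < 0 ∧ Summable fun u : Fin n → ℤ => ‖u‖ ^ r := by
  let L := Submodule.span ℤ (Set.range (Pi.basisFun ℝ (Fin n)))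
  have h0 := ZLattice.summable_norm_rpow L (-(Module.finrank ℤ L : ℝ) - 1) (by linarith)
  refine ⟨-(Module.finrank ℤ L : ℝ) - 1, by
    have : (0 : ℝ) ≤ Module.finrank ℤ L := by positivity
    linarith, ?_⟩
  have hmem : ∀ u : Fin n → ℤ, (fun i => (u i : ℝ)) ∈ L := by
    intro u
    have : (fun i => (u i : ℝ)) = ∑ i, u i • (Pi.basisFun ℝ (Fin n) i) := by
      ext j
      simp [Finset.sum_apply, Pi.single_apply]
    rw [this]
    exact Submodule.sum_mem _ fun i _ => Submodule.smul_mem _ _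
      (Submodule.subset_span (Set.mem_range_self i))
  have hinj : Function.Injective fun u : Fin n → ℤ => (⟨fun i => (u i : ℝ), hmem u⟩ : L) := by
    intro u v h
    have h1 := congrArg Subtype.val h
    ext i
    have h2 : (u i : ℝ) = (v i : ℝ) := congrFun h1 i
    exact_mod_cast h2
  have h2 := h0.comp_injective hinj
  refine h2.congr fun u => ?_
  simp only [Function.comp_apply]
  congr 1

theorem one_le_norm_int {n : ℕ} {u : Fin n → ℤ} (hu : u ≠ 0) : 1 ≤ ‖u‖ := by
  obtain ⟨i, hi⟩ := Function.ne_iff.mp hu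
  have h1 : (1 : ℝ) ≤ ‖u i‖ := by
    rw [Int.norm_eq_abs]
    exact_mod_cast Int.one_le_abs hi
  exact h1.trans (norm_le_pi_norm u i)

/-- Gaussian sums over the lattice converge. -/
theorem summable_gauss (n : ℕ) {a : ℝ} (ha : 0 < a) (b : ℝ) :
    Summable fun u : Fin n → ℤ => Real.exp (-(a * ‖u‖ ^ 2) + b * ‖u‖) := by
  obtain ⟨r, hr, hs⟩ := summable_norm_rpow_int n
  have hlim : Tendsto (fun t : ℝ => t ^ (-r) * Real.exp (-(a * t ^ 2) + b * t)) atTop (𝓝 0) := by
    have h1 : Tendsto (fun t : ℝ => t ^ (-r) * Real.exp (-(1 : ℝ) * t)) atTop (𝓝 0) :=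
      tendsto_rpow_mul_exp_neg_mul_atTop_nhds_zero (-r) 1 one_pos
    have h2 : Tendsto (fun t : ℝ => t * (-(a * t) + (b + 1))) atTop atBot := by
      apply Tendsto.atTop_mul_atBot₀ tendsto_id
      have h3 : Tendsto (fun t : ℝ => a * t) atTop atTop := tendsto_id.const_mul_atTop ha
      exact tendsto_atBot_add_const_right _ _ (tendsto_neg_atTop_atBot.comp h3)
    have h4 := h1.mul (Real.tendsto_exp_atBot.comp h2)
    rw [zero_mul] at h4
    refine h4.congr fun t => ?_
    simp only [Function.comp_apply]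
    rw [mul_assoc, ← Real.exp_add]
    congr 2
    ring
  obtain ⟨t0, ht0⟩ := ((hlim.eventually (gt_mem_nhds one_pos)).and (eventually_gt_atTop 0)).exists_forall_of_atTop
  have hfin : {u : Fin n → ℤ | ‖u‖ ≤ max t0 1}.Finite := by
    have := (isCompact_closedBall (0 : Fin n → ℤ) (max t0 1)).finite_of_discrete
    refine this.subset fun u hu => ?_
    simpa using hu
  refine Summable.of_norm_bounded_eventually hs ?_
  rw [Filter.eventually_cofinite]
  refine hfin.subset fun u hu => ?_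
  by_contra hlt
  apply hu
  simp only [Set.mem_ofPred_eq, not_le] at hlt
  have h5 : t0 ≤ ‖u‖ := (le_max_left _ _).trans hlt.le
  obtain ⟨h6, h7⟩ := ht0 _ h5
  rw [Real.norm_eq_abs, abs_of_pos (Real.exp_pos _)]
  have h8 : ‖u‖ ^ r * (‖u‖ ^ (-r) * Real.exp (-(a * ‖u‖ ^ 2) + b * ‖u‖)) ≤ ‖u‖ ^ r * 1 := by
    gcongr
  rw [← mul_assoc, ← Real.rpow_add h7, add_neg_cancel, Real.rpow_zero, one_mul, mul_one] at h8
  exact h8

end Vale.Agent.P270
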