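import Vale.Agent.P270.Torus.Liouville
import Mathlib.LinearAlgebra.FreeModule.PID
import Mathlib.Algebra.Module.Projective

open Complex

namespace Vale.Agent.P270

variable {g : ℕ} {T : Torus g}

/-- `T.vec` as an additive map. -/
noncomputable def Torus.vecHom (T : Torus g) : (Fin (2 * g) → ℤ) →+ (Fin g → ℂ) where
  toFun := T.vec
  map_zero' := T.vec_zero'
  map_add' := T.vec_add

theorem Torus.vec_zsmul (T : Torus g) (n : ℤ) (u : Fin (2 * g) → ℤ) :
    T.vec (n • u) = (n : ℂ) • T.vec u := by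
  have := map_zsmul T.vecHom n u
  change T.vec (n • u) = n • T.vec u at this
  rw [this]
  ext k
  simp

theorem Torus.vec_injective (T : Torus g) : Function.Injective T.vec := by
  intro u v h
  have h1 := congrArg T.equiv.symm h
  rw [T.equiv_symm_vec, T.equiv_symm_vec] at h1
  ext i
  have := congrFun h1 i
  exact_mod_cast this

namespace Factor

/-! ### Multiplicativity for the group structure -/

theorem pow_val (N : Factor T) (k : ℕ) (u : Fin (2 * g) → ℤ) (z : Fin g → ℂ) :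
    (N ^ k).val u z = N.val u z ^ k := by
  induction k with
  | zero => simp
  | succ k ih => rw [pow_succ, mul_val, ih, pow_succ]

theorem zpow_val (N : Factor T) (k : ℤ) (u : Fin (2 * g) → ℤ) (z : Fin g → ℂ) :
    (N ^ k).val u z = N.val u z ^ k := by
  cases k with
  | ofNat k => simp [pow_val]
  | negSucc k => simp [zpow_negSucc, pow_val]

theorem q_mul (N N' : Factor T) (x : Fin g → ℂ) : (N * N').q x = N.q x + N'.q x :=
  q_mul_of (fun _ _ => rfl) x

theorem q_inv (N : Factor T) (x : Fin g → ℂ) : (N⁻¹).q x = -N.q x :=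
  q_inv_of (fun _ _ => rfl) x

theorem q_pow (N : Factor T) (k : ℕ) (x : Fin g → ℂ) : (N ^ k).q x = k * N.q x :=
  q_pow_of (fun u z => N.pow_val k u z) x

theorem q_one (x : Fin g → ℂ) : (1 : Factor T).q x = 0 := q_flat (fun _ _ => rfl) x

theorem q_div (N N' : Factor T) (x : Fin g → ℂ) : (N / N').q x = N.q x - N'.q x := by
  rw [div_eq_mul_inv, q_mul, q_inv]
  ring

theorem q_zpow (N : Factor T) (k : ℤ) (x : Fin g → ℂ) : (N ^ k).q x = k * N.q x := by
  cases k with
  | ofNat k => simp [q_pow]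
  | negSucc k =>
    rw [zpow_negSucc, q_inv, q_pow]
    push_cast
    ring

theorem q_prod {ι : Type*} (s : Finset ι) (N : ι → Factor T) (x : Fin g → ℂ) :
    (∏ i ∈ s, N i).q x = ∑ i ∈ s, (N i).q x := by
  classical
  induction s using Finset.induction_on with
  | empty => simp [q_one]
  | insert i s hi ih => rw [Finset.prod_insert hi, Finset.sum_insert hi, q_mul, ih]

theorem ch_mul (N N' : Factor T) (u : Fin (2 * g) → ℤ) : (N * N').ch u = N.ch u * N'.ch u := rfl

theorem ch_inv (N : Factor T) (u : Fin (2 * g) → ℤ) : (N⁻¹).ch u = (N.ch u)⁻¹ := rfl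

theorem ch_one (u : Fin (2 * g) → ℤ) : (1 : Factor T).ch u = 1 := rfl

theorem ch_pow (N : Factor T) (k : ℕ) (u : Fin (2 * g) → ℤ) : (N ^ k).ch u = N.ch u ^ k := by
  unfold ch
  rw [pow_val]

theorem ch_zpow (N : Factor T) (k : ℤ) (u : Fin (2 * g) → ℤ) : (N ^ k).ch u = N.ch u ^ k := by
  unfold ch
  rw [zpow_val]

theorem ch_ne_zero (N : Factor T) (u : Fin (2 * g) → ℤ) : N.ch u ≠ 0 := N.val_ne_zero _ _

theorem ch_add (N : Factor T) (u v : Fin (2 * g) → ℤ) :
    N.ch (u + v) = N.ch u * N.ch v *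
      exp ((N.A (T.vec u) (T.vec v) - N.A (T.vec v) (T.vec u)) / 2) := by
  rw [ch_eq, ch_eq, ch_eq, ← exp_add, ← exp_add, sub_eq_add_neg, exp_add, exp_c_add, ← exp_add]
  congr 1
  rw [T.vec_add, A_add_left, A_add_right, A_add_right]
  ring

namespace TrivOn

variable {N N' : Factor T} {W : Set (Fin (2 * g) → ℤ)}

theorem mul (h : N.TrivOn W) (h' : N'.TrivOn W) : (N * N').TrivOn W := by
  obtain ⟨γ, hγ⟩ := h
  obtain ⟨γ', hγ'⟩ := h'
  refine ⟨γ + γ', fun u hu => ?_⟩
  rw [ch_mul, hγ u hu, hγ' u hu, ← exp_add, add_dotProduct]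

theorem inv (h : N.TrivOn W) : (N⁻¹).TrivOn W := by
  obtain ⟨γ, hγ⟩ := h
  refine ⟨-γ, fun u hu => ?_⟩
  rw [ch_inv, hγ u hu, ← exp_neg, neg_dotProduct]

theorem one : (1 : Factor T).TrivOn W :=
  ⟨0, fun u _ => by rw [ch_one, zero_dotProduct, exp_zero]⟩

theorem div (h : N.TrivOn W) (h' : N'.TrivOn W) : (N / N').TrivOn W := by
  rw [div_eq_mul_inv]
  exact h.mul h'.inv

theorem pow (h : N.TrivOn W) (k : ℕ) : (N ^ k).TrivOn W := by
  induction k with
  | zero => rw [pow_zero]; exact one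
  | succ k ih => rw [pow_succ]; exact ih.mul h

theorem zpow (h : N.TrivOn W) (k : ℤ) : (N ^ k).TrivOn W := by
  cases k with
  | ofNat k => simpa using h.pow k
  | negSucc k => rw [zpow_negSucc]; exact (h.pow _).inv

theorem prod {ι : Type*} (s : Finset ι) {N : ι → Factor T} (h : ∀ i ∈ s, (N i).TrivOn W) :
    (∏ i ∈ s, N i).TrivOn W := by
  classical
  induction s using Finset.induction_on with
  | empty => rw [Finset.prod_empty]; exact one
  | insert i s hi ih =>
    rw [Finset.prod_insert hi]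
    exact (h i (Finset.mem_insert_self i s)).mul (ih fun j hj => h j (Finset.mem_insert_of_mem hj))

theorem mono {W' : Set (Fin (2 * g) → ℤ)} (h : N.TrivOn W) (hW : W' ⊆ W) : N.TrivOn W' := by
  obtain ⟨γ, hγ⟩ := h
  exact ⟨γ, fun u hu => hγ u (hW hu)⟩

theorem of_ch_eq_one (h : ∀ u ∈ W, N.ch u = 1) : N.TrivOn W :=
  ⟨0, fun u hu => by rw [h u hu, zero_dotProduct, exp_zero]⟩

end TrivOn

/-! ### The null lattice -/

variable (N : Factor T)

theorem q_add_null (hq : ∀ x, 0 ≤ N.q x) {x y : Fin g → ℂ} (hx : N.q x = 0) (hy : N.q y = 0) :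
    N.q (x + y) = 0 := by
  rw [q_eq_zero_iff, P_add_right, N.P_eq_zero hq hx, N.P_eq_zero hq hy, add_zero]

theorem q_smul_null (hq : ∀ x, 0 ≤ N.q x) {x : Fin g → ℂ} (hx : N.q x = 0) (t : ℂ) :
    N.q (t • x) = 0 := by
  rw [q_eq_zero_iff, P_smul_right, N.P_eq_zero hq hx, mul_zero]

theorem q_zero : N.q 0 = 0 := by
  rw [q_eq_zero_iff]
  have := N.P_add_left 0 0 0
  rw [add_zero] at this
  exact left_eq_add.mp this

theorem P_null_left (hq : ∀ x, 0 ≤ N.q x) {x : Fin g → ℂ} (hx : N.q x = 0) (y : Fin g → ℂ) :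
    N.P x y = 0 := by
  rw [N.P_conj y x, N.P_eq_zero hq hx, map_zero]

theorem A_null_comm (hq : ∀ x, 0 ≤ N.q x) {x : Fin g → ℂ} (hx : N.q x = 0) (y : Fin g → ℂ) :
    N.A x y = N.A y x := by
  rw [A_eq, A_eq, N.P_null_left hq hx, N.P_eq_zero hq hx, S_symm]

/-- The lattice points in the kernel of a semipositive form. -/
def null (hq : ∀ x, 0 ≤ N.q x) : Submodule ℤ (Fin (2 * g) → ℤ) where
  carrier := {u | N.q (T.vec u) = 0}
  add_mem' := by
    intro u v hu hv
    change N.q (T.vec (u + v)) = 0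
    rw [T.vec_add]
    exact N.q_add_null hq hu hv
  zero_mem' := by
    change N.q (T.vec 0) = 0
    rw [T.vec_zero', q_zero]
  smul_mem' := by
    intro n u hu
    change N.q (T.vec (n • u)) = 0
    rw [T.vec_zsmul]
    exact N.q_smul_null hq hu _

theorem mem_null (hq : ∀ x, 0 ≤ N.q x) {u : Fin (2 * g) → ℤ} :
    u ∈ N.null hq ↔ N.q (T.vec u) = 0 := Iff.rfl

theorem null_saturated (hq : ∀ x, 0 ≤ N.q x) {n : ℤ} (hn : n ≠ 0) {u : Fin (2 * g) → ℤ}
    (h : n • u ∈ N.null hq) : u ∈ N.null hq := by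
  rw [mem_null] at h ⊢
  rw [T.vec_zsmul] at h
  have := N.q_smul_null hq h ((n : ℂ)⁻¹)
  rwa [smul_smul, inv_mul_cancel₀ (by exact_mod_cast hn), one_smul] at this

/-- A projection of the lattice onto the null lattice. -/
theorem exists_proj (hq : ∀ x, 0 ≤ N.q x) :
    ∃ π : (Fin (2 * g) → ℤ) →ₗ[ℤ] (Fin (2 * g) → ℤ),
      (∀ u, π u ∈ N.null hq) ∧ ∀ u ∈ N.null hq, π u = u := by
  have htf : Module.IsTorsionFree ℤ ((Fin (2 * g) → ℤ) ⧸ N.null hq) := by
    constructor
    intro n hn a b hab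
    have hn0 : n ≠ 0 := by
      rintro rfl
      exact not_isRegular_zero hn
    induction a using Submodule.Quotient.induction_on with | _ a =>
    induction b using Submodule.Quotient.induction_on with | _ b =>
    simp only [← Submodule.Quotient.mk_smul] at hab
    rw [Submodule.Quotient.eq, ← smul_sub] at hab
    rw [Submodule.Quotient.eq]
    exact N.null_saturated hq hn0 hab
  obtain ⟨s, hs⟩ := Module.projective_lifting_property (N.null hq).mkQ LinearMap.id
    (N.null hq).mkQ_surjective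
  refine ⟨LinearMap.id - s ∘ₗ (N.null hq).mkQ, fun u => ?_, fun u hu => ?_⟩
  · have h1 := LinearMap.congr_fun hs ((N.null hq).mkQ u)
    simp only [LinearMap.comp_apply, LinearMap.id_apply] at h1
    have h2 : (N.null hq).mkQ (u - s ((N.null hq).mkQ u)) = 0 := by
      rw [map_sub, h1, sub_self]
    have h3 := (Submodule.Quotient.mk_eq_zero _).mp h2
    simpa using h3
  · have h2 : (N.null hq).mkQ u = 0 := (Submodule.Quotient.mk_eq_zero _).mpr hu
    simp [h2]

theorem ch_add_null (hq : ∀ x, 0 ≤ N.q x) {u v : Fin (2 * g) → ℤ} (hu : u ∈ N.null hq) :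
    N.ch (u + v) = N.ch u * N.ch v := by
  rw [ch_add, N.A_null_comm hq hu, sub_self, zero_div, exp_zero, mul_one]

/-- T5: after a twist by a flat line bundle the character is trivial on the null lattice. -/
theorem exists_flat_twist (hq : ∀ x, 0 ≤ N.q x) :
    ∃ P : Factor T, (∀ u z, P.val u z = P.val u 0) ∧
      ∀ u, N.q (T.vec u) = 0 → (N * P).ch u = 1 := by
  obtain ⟨π, hπ, hπ'⟩ := N.exists_proj hq
  have hadd : ∀ u v, N.ch (π (u + v)) = N.ch (π u) * N.ch (π v) := by
    intro u v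
    rw [map_add, N.ch_add_null hq (hπ u)]
  refine ⟨{ val := fun u _ => (N.ch (π u))⁻¹
            exp_affine := fun u => ⟨0, Complex.log (N.ch (π u))⁻¹, fun z => by
              rw [show (∑ k, (0 : Fin g → ℂ) k * z k) = 0 by simp, zero_add,
                Complex.exp_log (inv_ne_zero (N.ch_ne_zero _))]⟩
            cocycle := fun u v _ => by rw [hadd, mul_inv] }, fun _ _ => rfl, fun u hu => ?_⟩
  rw [ch_mul]
  change N.ch u * (N.ch (π u))⁻¹ = 1
  rw [hπ' u hu, mul_inv_cancel₀ (N.ch_ne_zero u)]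

end Factor

end Vale.Agent.P270
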