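import Vale.Agent.P270.Torus.Basic

open Complex Filter Topology

namespace Vale.Agent.P270

variable {g : ℕ} {T : Torus g}

namespace Factor

/-- `f` is a section of `N`. -/
def Sec (N : Factor T) (f : (Fin g → ℂ) → ℂ) : Prop :=
  Differentiable ℂ f ∧ ∀ u z, f (z + T.vec u) = N.val u z * f z

/-- `N` has a nonzero section. -/
def IsEff (N : Factor T) : Prop := ∃ f, N.Sec f ∧ ∃ z, f z ≠ 0

/-- The semicharacter (up to the exponential of a linear form). -/
noncomputable def ch (N : Factor T) (u : Fin (2 * g) → ℤ) : ℂ := N.val u (-((1 / 2 : ℂ) • T.vec u))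

/-- On the set `W` of lattice points the character is the exponential of a complex linear form. -/
def TrivOn (N : Factor T) (W : Set (Fin (2 * g) → ℤ)) : Prop :=
  ∃ γ : Fin g → ℂ, ∀ u ∈ W, N.ch u = exp (γ ⬝ᵥ T.vec u)

variable (N : Factor T)

theorem ch_eq (u : Fin (2 * g) → ℤ) :
    N.ch u = exp (N.c u - N.A (T.vec u) (T.vec u) / 2) := by
  rw [ch, val_eq_A, A_neg_right, A_smul_right]
  congr 1
  ring

/-- The logarithm of the absolute value of the character. -/
noncomputable def m (u : Fin (2 * g) → ℤ) : ℝ := (N.c u).re - (N.A (T.vec u) (T.vec u)).re / 2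

theorem norm_ch (u : Fin (2 * g) → ℤ) : ‖N.ch u‖ = Real.exp (N.m u) := by
  rw [ch_eq, norm_exp]
  congr 1
  rw [m, sub_re, div_ofNat_re]

theorem m_add (u v : Fin (2 * g) → ℤ) : N.m (u + v) = N.m u + N.m v := by
  have h := congrArg (fun w : ℂ => ‖w‖) (N.exp_c_add u v)
  simp only [norm_exp] at h
  have h1 := Real.exp_injective h
  have h2 := N.re_A_sub (T.vec u) (T.vec v)
  simp only [add_re, sub_re] at h1 h2
  unfold m
  rw [T.vec_add, A_add_left, A_add_right, A_add_right]
  simp only [add_re]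
  linarith

/-- `m` as an additive map. -/
noncomputable def mHom : (Fin (2 * g) → ℤ) →+ ℝ where
  toFun := N.m
  map_zero' := by
    have := N.m_add 0 0
    rw [add_zero] at this
    linarith
  map_add' := N.m_add

theorem m_sum (u : Fin (2 * g) → ℤ) : N.m u = ∑ i, u i • N.m (Pi.single i 1) := by
  have h : u = ∑ i, u i • (Pi.single i 1 : Fin (2 * g) → ℤ) := by
    ext j
    simp [Finset.sum_apply, Pi.single_apply]
  conv_lhs => rw [h]
  change N.mHom (∑ i, u i • (Pi.single i 1 : Fin (2 * g) → ℤ)) = _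
  rw [map_sum]
  exact Finset.sum_congr rfl fun i _ => map_zsmul _ _ _

/-- The real linear extension of `m`. -/
noncomputable def M : (Fin g → ℂ) →ₗ[ℝ] ℝ :=
  (∑ i, (LinearMap.proj i : (Fin (2 * g) → ℝ) →ₗ[ℝ] ℝ).smulRight (N.m (Pi.single i 1))) ∘ₗ
    T.equiv.symm.toLinearMap

theorem M_vec (u : Fin (2 * g) → ℤ) : N.M (T.vec u) = N.m u := by
  have h : N.M (T.vec u) = ∑ i, T.equiv.symm (T.vec u) i • N.m (Pi.single i 1) := by
    simp [M]
  rw [h, T.equiv_symm_vec, N.m_sum]
  refine Finset.sum_congr rfl fun i _ => ?_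
  simp

/-- The complex linear functional with real part `M`. -/
noncomputable def G (x : Fin g → ℂ) : ℂ := N.M x - I * N.M (I • x)

/-- Its coefficients. -/
noncomputable def γ (k : Fin g) : ℂ := N.G (Pi.single k 1)

theorem G_re (x : Fin g → ℂ) : (N.G x).re = N.M x := by
  simp [G]

theorem G_add (x y : Fin g → ℂ) : N.G (x + y) = N.G x + N.G y := by
  unfold G
  rw [smul_add, map_add, map_add]
  push_cast
  ring

theorem G_real (t : ℝ) (x : Fin g → ℂ) : N.G ((t : ℂ) • x) = t * N.G x := by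
  have h : ((t : ℂ) • x) = t • x := by
    ext k
    simp
  have h' : I • (t • x) = t • (I • x) := smul_comm _ _ _
  rw [h]
  unfold G
  rw [h', map_smul, map_smul]
  simp only [smul_eq_mul]
  push_cast
  ring

theorem G_I (x : Fin g → ℂ) : N.G (I • x) = I * N.G x := by
  unfold G
  rw [I_smul_I_smul, map_neg]
  push_cast
  linear_combination (N.M (I • x) : ℂ) * I_mul_I

theorem G_smul (t : ℂ) (x : Fin g → ℂ) : N.G (t • x) = t * N.G x := by
  have h : t • x = (t.re : ℂ) • x + I • ((t.im : ℂ) • x) := by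
    rw [smul_smul, ← add_smul]
    congr 1
    conv_lhs => rw [← re_add_im t]
    ring
  rw [h, G_add, G_real, G_I, G_real]
  conv_rhs => rw [← re_add_im t]
  ring

theorem G_eq (x : Fin g → ℂ) : N.G x = N.γ ⬝ᵥ x := by
  let L : (Fin g → ℂ) →ₗ[ℂ] ℂ :=
    { toFun := N.G
      map_add' := N.G_add
      map_smul' := N.G_smul }
  have := LinearMap.pi_apply_eq_sum_univ L x
  change N.G x = _ at this
  rw [this]
  unfold dotProduct
  refine Finset.sum_congr rfl fun k _ => ?_
  rw [smul_eq_mul, mul_comm]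
  congr 1
  change N.G _ = N.γ k
  unfold γ
  congr 1
  ext j
  simp [Pi.single_apply, eq_comm]

/-- The weight: `log |N.val u z| = ρ (z + vec u) - ρ z`. -/
noncomputable def ρ (z : Fin g → ℂ) : ℝ := (N.A z z).re / 2 + N.M z

theorem norm_val (u : Fin (2 * g) → ℤ) (z : Fin g → ℂ) :
    ‖N.val u z‖ = Real.exp (N.ρ (z + T.vec u) - N.ρ z) := by
  rw [val_eq_A, norm_exp]
  congr 1
  have h := N.re_A_sub (T.vec u) z
  unfold ρ
  rw [map_add, M_vec, m, A_add_left, A_add_right, A_add_right]
  simp only [add_re, sub_re] at h ⊢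
  linarith

theorem continuous_lam : Continuous N.lam := LinearMap.continuous_of_finiteDimensional _

theorem continuous_A_self : Continuous fun z => N.A z z := by
  unfold A dotProduct
  have := N.continuous_lam
  fun_prop

theorem continuous_ρ : Continuous N.ρ := by
  unfold ρ
  have h1 := N.continuous_A_self
  have h2 : Continuous N.M := LinearMap.continuous_of_finiteDimensional _
  exact ((Complex.continuous_re.comp h1).div_const 2).add h2

variable {N}

theorem Sec.exists_bound {f : (Fin g → ℂ) → ℂ} (hf : N.Sec f) :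
    ∃ C : ℝ, 0 < C ∧ ∀ z, ‖f z‖ ≤ C * Real.exp (N.ρ z) := by
  set F : (Fin g → ℂ) → ℝ := fun z => ‖f z‖ * Real.exp (-N.ρ z) with hF
  have hper : ∀ u z, F (z + T.vec u) = F z := by
    intro u z
    simp only [hF]
    rw [hf.2, norm_mul, norm_val]
    have : Real.exp (N.ρ (z + T.vec u) - N.ρ z) * ‖f z‖ * Real.exp (-N.ρ (z + T.vec u)) =
        ‖f z‖ * (Real.exp (N.ρ (z + T.vec u) - N.ρ z) * Real.exp (-N.ρ (z + T.vec u))) := by ring
    rw [this, ← Real.exp_add]
    congr 2
    ring
  have hcont : Continuous F := by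
    have h1 := hf.1.continuous
    have h2 := N.continuous_ρ
    fun_prop
  have hK : IsCompact (T.equiv '' Set.Icc (0 : Fin (2 * g) → ℝ) 1) :=
    isCompact_Icc.image (LinearMap.continuous_of_finiteDimensional T.equiv.toLinearMap)
  obtain ⟨C, hC⟩ := hK.bddAbove_image hcont.continuousOn
  refine ⟨max C 1, by positivity, fun z => ?_⟩
  set x := T.equiv.symm z with hx
  set u : Fin (2 * g) → ℤ := fun i => ⌊x i⌋ with hu
  set y : Fin (2 * g) → ℝ := fun i => Int.fract (x i) with hy
  have hz : z = T.equiv y + T.vec u := by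
    rw [← T.equiv_int, ← map_add]
    have : y + (fun i => (u i : ℝ)) = x := by
      ext i
      simp [hy, hu, Int.fract_add_floor]
    rw [this, hx, LinearEquiv.apply_symm_apply]
  have h1 : F z ≤ C := by
    rw [hz, hper]
    apply hC
    refine ⟨_, ⟨y, ⟨fun i => Int.fract_nonneg _, fun i => (Int.fract_lt_one _).le⟩, rfl⟩, rfl⟩
  have h2 : ‖f z‖ = F z * Real.exp (N.ρ z) := by
    simp only [hF]
    rw [mul_assoc, ← Real.exp_add]
    simp
  rw [h2]
  gcongr
  exact h1.trans (le_max_left _ _)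


/-! ### The normalised section -/

variable (N)

theorem S_differentiable : Differentiable ℂ fun z => N.S z z := by
  have h : (fun z => N.S z z) = fun z => ∑ k, N.S z (Pi.single k 1) * z k := by
    ext z
    have hz : z = ∑ k, z k • (Pi.single k 1 : Fin g → ℂ) := by
      ext j
      simp [Finset.sum_apply, Pi.single_apply]
    let L : (Fin g → ℂ) →ₗ[ℂ] ℂ :=
      { toFun := N.S z
        map_add' := N.S_add_right z
        map_smul' := fun t y => N.S_smul_right t z y }
    have h1 := LinearMap.pi_apply_eq_sum_univ L z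
    change N.S z z = _ at h1
    rw [h1]
    refine Finset.sum_congr rfl fun k _ => ?_
    rw [smul_eq_mul, mul_comm]
    congr 1
    change N.S z _ = N.S z _
    congr 1
    ext j
    simp [Pi.single_apply, eq_comm]
  rw [h]
  have h2 : ∀ k : Fin g, Differentiable ℂ fun z => N.S z (Pi.single k 1) := by
    intro k
    let L : (Fin g → ℂ) →ₗ[ℂ] ℂ :=
      { toFun := fun z => N.S z (Pi.single k 1)
        map_add' := fun x y => N.S_add_left x y _
        map_smul' := fun t y => N.S_smul_left t y _ }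
    exact (LinearMap.toContinuousLinearMap L).differentiable
  have h3 : ∀ k : Fin g, Differentiable ℂ fun z : Fin g → ℂ => z k := fun k => by fun_prop
  exact Differentiable.fun_sum fun k _ => (h2 k).mul (h3 k)

theorem G_differentiable : Differentiable ℂ N.G := by
  let L : (Fin g → ℂ) →ₗ[ℂ] ℂ :=
    { toFun := N.G
      map_add' := N.G_add
      map_smul' := N.G_smul }
  exact (LinearMap.toContinuousLinearMap L).differentiable

/-- The factor that makes a section almost periodic. -/
noncomputable def nrm (z : Fin g → ℂ) : ℂ := exp (-(N.S z z / 2) - N.G z)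

theorem nrm_differentiable : Differentiable ℂ N.nrm := by
  unfold nrm
  have h1 := N.S_differentiable
  have h2 := N.G_differentiable
  fun_prop

theorem norm_nrm (z : Fin g → ℂ) :
    ‖N.nrm z‖ = Real.exp (-N.ρ z + (N.P z z).re / 2) := by
  rw [nrm, norm_exp]
  congr 1
  rw [ρ, A_eq, sub_re, neg_re, div_ofNat_re, G_re, add_re]
  ring

variable {N}

theorem Sec.exists_bound' {f : (Fin g → ℂ) → ℂ} (hf : N.Sec f) :
    ∃ C : ℝ, 0 < C ∧ ∀ z, ‖f z * N.nrm z‖ ≤ C * Real.exp ((N.P z z).re / 2) := by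
  obtain ⟨C, hC, h⟩ := hf.exists_bound
  refine ⟨C, hC, fun z => ?_⟩
  rw [norm_mul, norm_nrm]
  calc ‖f z‖ * Real.exp (-N.ρ z + (N.P z z).re / 2)
      ≤ (C * Real.exp (N.ρ z)) * Real.exp (-N.ρ z + (N.P z z).re / 2) := by
        gcongr
        exact h z
    _ = C * Real.exp ((N.P z z).re / 2) := by
        rw [mul_assoc, ← Real.exp_add]
        congr 2
        ring

variable (N)

theorem P_line (z x : Fin g → ℂ) (s : ℂ) :
    (N.P (z + s • x) (z + s • x)).re =
      (N.P z z).re + 2 * (s * N.P z x).re + ‖s‖ ^ 2 * (N.P x x).re := by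
  have h : N.P (z + s • x) (z + s • x) = N.P z z + (s * N.P z x + (starRingEnd ℂ) (s * N.P z x)) +
      ((‖s‖ ^ 2 : ℝ) : ℂ) * N.P x x := by
    rw [P_add_left, P_add_right, P_add_right, P_smul_left, P_smul_right, P_smul_left,
      P_smul_right, map_mul, ← N.P_conj z x, ← mul_assoc ((starRingEnd ℂ) s) s, ← normSq_eq_conj_mul_self,
      normSq_eq_norm_sq]
    ring
  rw [h, add_re, add_re, add_conj, re_ofReal_mul, ofReal_re]

theorem q_nonneg_iff (x : Fin g → ℂ) : 0 ≤ N.q x ↔ 0 ≤ (N.P x x).re := by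
  unfold q
  constructor
  · intro h
    have := mul_nonneg h Real.pi_pos.le
    rwa [div_mul_cancel₀ _ Real.pi_pos.ne'] at this
  · intro h
    exact div_nonneg h Real.pi_pos.le

theorem q_eq_zero_iff (x : Fin g → ℂ) : N.q x = 0 ↔ N.P x x = 0 := by
  constructor
  · intro h
    rw [P_self, h, mul_zero, ofReal_zero]
  · intro h
    rw [q, h, zero_re, zero_div]

/-- Cauchy-Schwarz: the null vectors of a semipositive form are in its kernel. -/
theorem P_eq_zero (hq : ∀ x, 0 ≤ N.q x) {x : Fin g → ℂ} (hx : N.q x = 0) (y : Fin g → ℂ) :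
    N.P y x = 0 := by
  by_contra hne
  set w := N.P y x with hw
  have hw0 : 0 < ‖w‖ ^ 2 := by positivity
  set t : ℝ := ((N.P y y).re + 1) / (2 * ‖w‖ ^ 2) with ht
  have h1 := (N.q_nonneg_iff _).mp (hq (y + (-(t : ℂ) * (starRingEnd ℂ) w) • x))
  rw [P_line, (N.q_eq_zero_iff x).mp hx, zero_re, mul_zero, add_zero, ← hw] at h1
  have h2 : (-(t : ℂ) * (starRingEnd ℂ) w * w).re = -(t * ‖w‖ ^ 2) := by
    have : -(t : ℂ) * (starRingEnd ℂ) w * w = ((-(t * ‖w‖ ^ 2) : ℝ) : ℂ) := by
      rw [mul_assoc, ← normSq_eq_conj_mul_self, normSq_eq_norm_sq]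
      push_cast
      ring
    rw [this, ofReal_re]
  rw [h2, ht] at h1
  field_simp at h1
  linarith

variable {N}

/-- T1: an effective line bundle has a semipositive Hermitian form. -/
theorem IsEff.q_nonneg (hN : N.IsEff) (x : Fin g → ℂ) : 0 ≤ N.q x := by
  obtain ⟨f, hf, z, hz⟩ := hN
  by_contra hneg
  have hneg' : (N.P x x).re < 0 := by
    by_contra h
    exact hneg ((N.q_nonneg_iff x).mpr (not_lt.mp h))
  obtain ⟨C, hC, hb⟩ := hf.exists_bound'
  set F : ℂ → ℂ := fun s => f (z + s • x) * N.nrm (z + s • x) with hF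
  have hlin : Differentiable ℂ fun s : ℂ => z + s • x := by fun_prop
  have hFd : Differentiable ℂ F := (hf.1.comp hlin).mul (N.nrm_differentiable.comp hlin)
  set c := -(N.P x x).re with hc
  have hc0 : 0 < c := by linarith
  have hbound : ∀ s, ‖F s‖ ≤ C * Real.exp (((N.P z z).re + 2 * (‖N.P z x‖ * ‖s‖) - c * ‖s‖ ^ 2) / 2) := by
    intro s
    refine (hb _).trans ?_
    gcongr
    rw [P_line]
    have h1 : (s * N.P z x).re ≤ ‖N.P z x‖ * ‖s‖ := by
      refine (re_le_norm _).trans ?_
      rw [norm_mul, mul_comm]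
    have h2 : ‖s‖ ^ 2 * (N.P x x).re = -(c * ‖s‖ ^ 2) := by rw [hc]; ring
    rw [h2]
    linarith
  have hlim : Tendsto F (cocompact ℂ) (𝓝 0) := by
    apply squeeze_zero_norm hbound
    have h1 : Tendsto (fun r : ℝ => ((N.P z z).re + 2 * (‖N.P z x‖ * r) - c * r ^ 2) / 2)
        atTop atBot := by
      have h2 : Tendsto (fun r : ℝ => r * (‖N.P z x‖ - c / 2 * r) + (N.P z z).re / 2) atTop atBot := by
        apply tendsto_atBot_add_const_right
        apply Tendsto.atTop_mul_atBot₀ tendsto_id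
        have h3 : Tendsto (fun r : ℝ => c / 2 * r) atTop atTop :=
          tendsto_id.const_mul_atTop (by positivity)
        exact tendsto_atBot_add_const_left _ _ (tendsto_neg_atTop_atBot.comp h3)
      refine h2.congr fun r => ?_
      ring
    have h4 : Tendsto (fun s : ℂ => ‖s‖) (cocompact ℂ) atTop := tendsto_norm_cocompact_atTop
    have h5 := (Real.tendsto_exp_atBot.comp (h1.comp h4)).const_mul C
    simpa [Function.comp_def] using h5
  have h0 : F 0 = 0 := hFd.apply_eq_of_tendsto_cocompact 0 hlim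
  simp only [hF, zero_smul, add_zero, mul_eq_zero] at h0
  rcases h0 with h0 | h0
  · exact hz h0
  · exact exp_ne_zero _ h0

theorem Sec.nrm_invariant {f : (Fin g → ℂ) → ℂ} (hf : N.Sec f) (hq : ∀ x, 0 ≤ N.q x)
    {x : Fin g → ℂ} (hx : N.q x = 0) (z : Fin g → ℂ) :
    f (z + x) * N.nrm (z + x) = f z * N.nrm z := by
  obtain ⟨C, hC, hb⟩ := hf.exists_bound'
  set F : ℂ → ℂ := fun s => f (z + s • x) * N.nrm (z + s • x) with hF
  have hlin : Differentiable ℂ fun s : ℂ => z + s • x := by fun_prop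
  have hFd : Differentiable ℂ F := (hf.1.comp hlin).mul (N.nrm_differentiable.comp hlin)
  have hbd : Bornology.IsBounded (Set.range F) := by
    rw [isBounded_iff_forall_norm_le]
    refine ⟨C * Real.exp ((N.P z z).re / 2), ?_⟩
    rintro _ ⟨s, rfl⟩
    refine (hb _).trans_eq ?_
    rw [P_line, N.P_eq_zero hq hx, (N.q_eq_zero_iff x).mp hx]
    simp
  have := hFd.apply_eq_apply_of_bounded hbd 1 0
  simpa [hF] using this

/-- T4: an effective line bundle has trivial character on the null lattice. -/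
theorem IsEff.trivOn (hN : N.IsEff) : N.TrivOn {u | N.q (T.vec u) = 0} := by
  have hq := fun x => hN.q_nonneg x
  obtain ⟨f, hf, z, hz⟩ := hN
  refine ⟨N.γ, fun u hu => ?_⟩
  have h1 := hf.nrm_invariant hq hu z
  have hP : N.P (T.vec u) z = 0 := by
    rw [N.P_conj z (T.vec u), N.P_eq_zero hq hu, map_zero]
  have hP' : N.P (T.vec u) (T.vec u) = 0 := N.P_eq_zero hq hu _
  rw [hf.2, val_eq_A] at h1
  unfold nrm at h1
  have h2 : exp (N.A (T.vec u) z + N.c u) * exp (-(N.S (z + T.vec u) (z + T.vec u) / 2) -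
      N.G (z + T.vec u)) = exp (-(N.S z z / 2) - N.G z) := by
    apply mul_left_cancel₀ hz
    linear_combination h1
  rw [← exp_add] at h2
  rw [ch_eq, ← G_eq]
  have h3 : N.A (T.vec u) z = N.S z (T.vec u) := by rw [A_eq, hP, add_zero, S_symm]
  have h4 : N.A (T.vec u) (T.vec u) = N.S (T.vec u) (T.vec u) := by rw [A_eq, hP', add_zero]
  rw [h3, S_add_left, S_add_right, S_add_right, G_add, N.S_symm (T.vec u) z] at h2
  rw [h4]
  rw [exp_eq_exp_iff_exists_int] at h2 ⊢
  obtain ⟨n, hn⟩ := h2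
  exact ⟨n, by linear_combination hn⟩

end Factor

end Vale.Agent.P270
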