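import Vale.Agent.P270.Torus.Lattice
import Mathlib.LinearAlgebra.Basis.VectorSpace

open Complex

namespace Vale.Agent.P270

variable {g : ℕ} {T : Torus g}

/-- A real linear map that vanishes on the periods is zero. -/
theorem Torus.eq_zero_of_single (T : Torus g) {M : Type*} [AddCommGroup M] [Module ℝ M]
    (f : (Fin g → ℂ) →ₗ[ℝ] M) (h : ∀ j, f (T.vec (Pi.single j 1)) = 0) (x : Fin g → ℂ) :
    f x = 0 := by
  apply T.eq_of_vec f 0
  intro u
  have h1 : T.vec u = ∑ j, (u j : ℂ) • T.vec (Pi.single j 1) := by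
    have h2 : u = ∑ i, u i • (Pi.single i 1 : Fin (2 * g) → ℤ) := by
      ext j
      simp [Finset.sum_apply, Pi.single_apply]
    conv_lhs => rw [h2]
    change T.vecHom _ = _
    rw [map_sum]
    refine Finset.sum_congr rfl fun j _ => ?_
    change T.vec _ = _
    rw [T.vec_zsmul]
  rw [h1, map_sum, LinearMap.zero_apply]
  refine Finset.sum_eq_zero fun j _ => ?_
  have h3 : ((u j : ℂ) • T.vec (Pi.single j 1) : Fin g → ℂ) =
      (u j : ℝ) • T.vec (Pi.single j 1) := by
    ext k
    simp
  rw [h3, map_smul, h, smul_zero]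

theorem exists_common_denominator {m : ℕ} (r : Fin m → ℚ) :
    ∃ (n : ℕ) (u : Fin m → ℤ), 0 < n ∧ ∀ i, (u i : ℚ) = n * r i := by
  refine ⟨∏ i, (r i).den, fun i => (∏ j ∈ Finset.univ.erase i, ((r j).den : ℤ)) * (r i).num,
    Finset.prod_pos fun i _ => (r i).den_pos, fun i => ?_⟩
  rw [← Finset.mul_prod_erase Finset.univ _ (Finset.mem_univ i)]
  push_cast
  have h := Rat.mul_den_eq_num (r i)
  calc (∏ j ∈ Finset.univ.erase i, ((r j).den : ℚ)) * (r i).num
      = (∏ j ∈ Finset.univ.erase i, ((r j).den : ℚ)) * (r i * (r i).den) := by rw [h]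
    _ = _ := by ring

namespace Factor

variable (N : Factor T)

theorem q_eq_zero_of_comm {x : Fin g → ℂ} (h : ∀ y, N.A x y = N.A y x) : N.q x = 0 := by
  rw [q_eq_zero_iff]
  have h1 := h (I • x)
  rw [A_eq, A_eq, S_smul_right, P_smul_right, S_smul_left, P_I_left] at h1
  have h2 : (2 * I) * N.P x x = 0 := by linear_combination h1
  rcases mul_eq_zero.mp h2 with h3 | h3
  · exact absurd h3 (by simp)
  · exact h3

theorem A_sub_zero_of_single {x : Fin g → ℂ}
    (h : ∀ j, N.A x (T.vec (Pi.single j 1)) = N.A (T.vec (Pi.single j 1)) x) (y : Fin g → ℂ) :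
    N.A x y = N.A y x := by
  have := T.eq_zero_of_single (N.Al x - N.Al.flip x) (fun j => by
    simp only [LinearMap.sub_apply, LinearMap.flip_apply, Al_apply]
    exact sub_eq_zero.mpr (h j)) y
  simp only [LinearMap.sub_apply, LinearMap.flip_apply, Al_apply] at this
  exact sub_eq_zero.mp this

/-- The kernel of a semipositive form is spanned by lattice vectors. -/
theorem mem_span_null (hq : ∀ x, 0 ≤ N.q x) {x : Fin g → ℂ} (hx : N.q x = 0) :
    x ∈ Submodule.span ℝ (T.vec '' (N.null hq : Set (Fin (2 * g) → ℤ))) := by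
  classical
  choose E hE using fun i j : Fin (2 * g) => N.exists_int (Pi.single i 1) (Pi.single j 1)
  set a := T.equiv.symm x with ha
  have hxa : x = ∑ i, (a i : ℂ) • T.vec (Pi.single i 1) := by
    have h1 : x = T.equiv a := by rw [ha, LinearEquiv.apply_symm_apply]
    rw [h1, T.equiv_apply]
    ext k
    rw [T.toC_apply, Finset.sum_apply]
    refine Finset.sum_congr rfl fun i _ => ?_
    simp [Torus.vec, Pi.single_apply]
  have hsum : ∀ j, ∑ i, (E i j : ℝ) * a i = 0 := by
    intro j
    have h1 : N.A x (T.vec (Pi.single j 1)) - N.A (T.vec (Pi.single j 1)) x = 0 :=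
      sub_eq_zero.mpr (N.A_null_comm hq hx _)
    have h2 : N.A x (T.vec (Pi.single j 1)) - N.A (T.vec (Pi.single j 1)) x =
        ((∑ i, (E i j : ℝ) * a i : ℝ) : ℂ) * (2 * Real.pi * I) := by
      have h3 : ∀ y : Fin g → ℂ, N.A x y = ∑ i, (a i : ℂ) * N.A (T.vec (Pi.single i 1)) y := by
        intro y
        have := congrArg (fun w => N.Al.flip y w) hxa
        simp only [map_sum, LinearMap.flip_apply, Al_apply] at this
        rw [this]
        refine Finset.sum_congr rfl fun i _ => ?_
        have h4 : ((a i : ℂ) • T.vec (Pi.single i 1) : Fin g → ℂ) =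
            (a i) • T.vec (Pi.single i 1) := by
          ext k
          simp
        rw [h4, A_smul_left]
      have h5 : ∀ y : Fin g → ℂ, N.A y x = ∑ i, (a i : ℂ) * N.A y (T.vec (Pi.single i 1)) := by
        intro y
        conv_lhs => rw [hxa]
        unfold A
        rw [dotProduct_sum]
        refine Finset.sum_congr rfl fun i _ => ?_
        rw [dotProduct_smul, smul_eq_mul]
      rw [h3, h5, ← Finset.sum_sub_distrib, ofReal_sum, Finset.sum_mul]
      refine Finset.sum_congr rfl fun i _ => ?_
      rw [← mul_sub, hE i j]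
      push_cast
      ring
    rw [h2] at h1
    rcases mul_eq_zero.mp h1 with h3 | h3
    · exact_mod_cast h3
    · exact absurd h3 (by simp [Real.pi_ne_zero])
  let b := Module.Basis.ofVectorSpace ℚ ℝ
  have hcoef : ∀ β, (fun i => b.repr (a i) β) = fun i => b.repr (a i) β := fun _ => rfl
  set s : Finset _ := Finset.univ.biUnion fun i => (b.repr (a i)).support with hs
  have hax : ∀ i, a i = ∑ β ∈ s, ((b.repr (a i) β : ℚ) : ℝ) * b β := by
    intro i
    have h1 := b.linearCombination_repr (a i)
    rw [Finsupp.linearCombination_apply, Finsupp.sum_of_support_subset (s := s)] at h1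
    · conv_lhs => rw [← h1]
      refine Finset.sum_congr rfl fun β _ => ?_
      rw [Rat.smul_def]
    · exact Finset.subset_biUnion_of_mem (fun i => (b.repr (a i)).support) (Finset.mem_univ i)
    · intro β _
      exact zero_smul _ _
  have hx2 : x = ∑ β ∈ s, (b β) • T.equiv (fun i => ((b.repr (a i) β : ℚ) : ℝ)) := by
    have h1 : x = T.equiv a := by rw [ha, LinearEquiv.apply_symm_apply]
    have h2 : a = ∑ β ∈ s, (b β) • (fun i => ((b.repr (a i) β : ℚ) : ℝ)) := by
      ext i
      rw [Finset.sum_apply]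
      conv_lhs => rw [hax i]
      refine Finset.sum_congr rfl fun β _ => ?_
      simp [mul_comm]
    rw [h1]
    conv_lhs => rw [h2]
    rw [map_sum]
    exact Finset.sum_congr rfl fun β _ => map_smul _ _ _
  rw [hx2]
  refine Submodule.sum_mem _ fun β _ => Submodule.smul_mem _ _ ?_
  obtain ⟨n, u, hn, hu⟩ := exists_common_denominator (fun i => b.repr (a i) β)
  have hu0 : u ∈ N.null hq := by
    rw [mem_null]
    apply N.q_eq_zero_of_comm
    apply N.A_sub_zero_of_single
    intro j
    have h1 : ∑ i, (E i j : ℝ) * (u i : ℝ) = 0 := by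
      have h2 : ∑ i, (E i j : ℚ) * b.repr (a i) β = 0 := by
        have h3 : b.repr (∑ i, (E i j : ℚ) • a i) β = 0 := by
          have h4 : (∑ i, (E i j : ℚ) • a i) = 0 := by
            rw [← hsum j]
            refine Finset.sum_congr rfl fun i _ => ?_
            rw [Rat.smul_def]
            push_cast
            rfl
          rw [h4, map_zero, Finsupp.zero_apply]
        rw [map_sum, Finsupp.finsetSum_apply] at h3
        rw [← h3]
        refine Finset.sum_congr rfl fun i _ => ?_
        rw [map_smul, Finsupp.smul_apply, smul_eq_mul]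
      have h5 : ∑ i, (E i j : ℚ) * (u i : ℚ) = 0 := by
        have : ∑ i, (E i j : ℚ) * (u i : ℚ) = n * ∑ i, (E i j : ℚ) * b.repr (a i) β := by
          rw [Finset.mul_sum]
          refine Finset.sum_congr rfl fun i _ => ?_
          rw [hu i]
          ring
        rw [this, h2, mul_zero]
      exact_mod_cast h5
    have h6 : T.vec u = ∑ i, (u i : ℂ) • T.vec (Pi.single i 1) := by
      ext k
      rw [Finset.sum_apply]
      simp [Torus.vec, Pi.single_apply]
    have h7 : N.A (T.vec u) (T.vec (Pi.single j 1)) - N.A (T.vec (Pi.single j 1)) (T.vec u) = 0 := by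
      have h3 : ∀ y : Fin g → ℂ,
          N.A (T.vec u) y = ∑ i, (u i : ℂ) * N.A (T.vec (Pi.single i 1)) y := by
        intro y
        have := congrArg (fun w => N.Al.flip y w) h6
        simp only [map_sum, LinearMap.flip_apply, Al_apply] at this
        rw [this]
        refine Finset.sum_congr rfl fun i _ => ?_
        have h4 : ((u i : ℂ) • T.vec (Pi.single i 1) : Fin g → ℂ) =
            (u i : ℝ) • T.vec (Pi.single i 1) := by
          ext k
          simp
        rw [h4, A_smul_left]
        simp
      have h5 : ∀ y : Fin g → ℂ,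
          N.A y (T.vec u) = ∑ i, (u i : ℂ) * N.A y (T.vec (Pi.single i 1)) := by
        intro y
        conv_lhs => rw [h6]
        unfold A
        rw [dotProduct_sum]
        refine Finset.sum_congr rfl fun i _ => ?_
        rw [dotProduct_smul, smul_eq_mul]
      rw [h3, h5, ← Finset.sum_sub_distrib]
      have h8 : ∑ i, ((u i : ℂ) * N.A (T.vec (Pi.single i 1)) (T.vec (Pi.single j 1)) -
          (u i : ℂ) * N.A (T.vec (Pi.single j 1)) (T.vec (Pi.single i 1))) =
          ((∑ i, (E i j : ℝ) * (u i : ℝ) : ℝ) : ℂ) * (2 * Real.pi * I) := by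
        rw [ofReal_sum, Finset.sum_mul]
        refine Finset.sum_congr rfl fun i _ => ?_
        rw [← mul_sub, hE i j]
        push_cast
        ring
      rw [h8, h1, ofReal_zero, zero_mul]
    exact sub_eq_zero.mp h7
  have h1 : T.equiv (fun i => ((b.repr (a i) β : ℚ) : ℝ)) = ((n : ℝ)⁻¹) • T.vec u := by
    rw [← T.equiv_int, ← map_smul]
    congr 1
    ext i
    have h2 : ((u i : ℚ) : ℝ) = ((n * b.repr (a i) β : ℚ) : ℝ) := by rw [hu i]
    push_cast at h2
    simp only [Pi.smul_apply, smul_eq_mul]
    rw [h2]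
    have hn' : (n : ℝ) ≠ 0 := by positivity
    field_simp
  rw [h1]
  exact Submodule.smul_mem _ _ (Submodule.subset_span ⟨u, hu0, rfl⟩)

end Factor

end Vale.Agent.P270
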