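import Vale.Agent.P270.Torus.Theta

open Complex Filter Topology

namespace Vale.Agent.P270

variable {g : ℕ} {T : Torus g}

namespace Factor

variable (N : Factor T)

theorem Phi_add_null (hq : ∀ x, 0 ≤ N.q x) (ht : N.TrivOn {u | N.q (T.vec u) = 0})
    (k : ℕ) (z0 y : Fin g → ℂ) {s : Fin (2 * g) → ℤ} (hs : N.q (T.vec s) = 0) :
    N.Phi k z0 (y + T.vec s) = N.val s y ^ k * N.Phi k z0 y := by
  have h1 := N.ch_eq_exp_G hq ht hs
  rw [ch_eq, sub_eq_add_neg, exp_add] at h1
  have h2 : exp (N.c s) = exp (N.G (T.vec s) + N.A (T.vec s) (T.vec s) / 2) := by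
    rw [exp_add, ← h1, mul_assoc, ← exp_add]
    simp
  have h3 : N.val s y = exp (N.S y (T.vec s) + N.S (T.vec s) (T.vec s) / 2 + N.G (T.vec s)) := by
    rw [val_eq_A, exp_add, h2, ← exp_add, A_eq, A_eq, N.P_null_left hq hs, N.P_null_left hq hs,
      N.S_symm (T.vec s) y]
    congr 1
    ring
  unfold Phi
  rw [h3, ← exp_nat_mul, ← exp_add]
  congr 1
  rw [S_add_left, S_add_right, S_add_right, G_add, P_add_right, N.P_eq_zero hq hs,
    N.S_symm (T.vec s) y]
  ring

theorem term_add_null (hq : ∀ x, 0 ≤ N.q x) (ht : N.TrivOn {u | N.q (T.vec u) = 0})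
    (k : ℕ) (z0 z : Fin g → ℂ) (t : Fin (2 * g) → ℤ) {s : Fin (2 * g) → ℤ}
    (hs : N.q (T.vec s) = 0) : N.term k z0 z (t + s) = N.term k z0 z t := by
  unfold term
  have h1 : z + T.vec (t + s) = (z + T.vec t) + T.vec s := by
    rw [T.vec_add, add_assoc]
  rw [h1, N.Phi_add_null hq ht k z0 _ hs, add_comm t s, N.cocycle, mul_pow]
  have h2 := N.val_ne_zero s (z + T.vec t)
  have h3 := N.val_ne_zero t z
  field_simp

theorem term_translate (k : ℕ) (z0 z : Fin g → ℂ) (t w : Fin (2 * g) → ℤ) :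
    N.term k z0 (z + T.vec w) t = N.val w z ^ k * N.term k z0 z (t + w) := by
  unfold term
  have h1 : z + T.vec (t + w) = z + T.vec w + T.vec t := by
    rw [T.vec_add]
    abel
  rw [h1, N.cocycle, mul_pow]
  have h2 := N.val_ne_zero t (z + T.vec w)
  have h3 := N.val_ne_zero w z
  field_simp

/-- T3: large powers of a semipositive line bundle with trivial character on the null lattice are
globally generated. -/
theorem exists_pow_sections (hq : ∀ x, 0 ≤ N.q x) (ht : N.TrivOn {u | N.q (T.vec u) = 0}) :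
    ∃ k0 : ℕ, 0 < k0 ∧ ∀ k, k0 ≤ k → ∀ z0, ∃ f, (N ^ k).Sec f ∧ f z0 ≠ 0 := by
  obtain ⟨π, hπ, hπ'⟩ := N.exists_proj hq
  obtain ⟨c, hc, hpos⟩ := N.exists_pos_on_compl hq hπ'
  set B := ∑' t : LinearMap.ker π, Real.exp (-(c / 2 * ‖(t : Fin (2 * g) → ℤ)‖ ^ 2)) with hB
  have hBs : Summable fun t : LinearMap.ker π =>
      Real.exp (-(c / 2 * ‖(t : Fin (2 * g) → ℤ)‖ ^ 2)) := by
    have := (summable_gauss (2 * g) (a := c / 2) (by positivity) 0).comp_injective
      (Subtype.val_injective (p := fun u => u ∈ LinearMap.ker π))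
    refine this.congr fun t => ?_
    simp
  have hlim : Tendsto (fun n : ℕ => Real.exp (-(n * (c / 2))) * B) atTop (𝓝 0) := by
    have h1 : Tendsto (fun n : ℕ => -((n : ℝ) * (c / 2))) atTop atBot :=
      tendsto_neg_atTop_atBot.comp
        (tendsto_natCast_atTop_atTop.atTop_mul_const (by positivity))
    have h2 := (Real.tendsto_exp_atBot.comp h1).mul_const B
    simpa [Function.comp_def] using h2
  obtain ⟨n0, hn0⟩ := (hlim.eventually (gt_mem_nhds one_pos)).exists_forall_of_atTop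
  refine ⟨n0 + 1, Nat.succ_pos _, fun k hk z0 => ?_⟩
  have hk0 : 0 < k := by omega
  obtain ⟨hsum, hdiff⟩ := N.tsum_differentiable k z0 hc
    (fun t : LinearMap.ker π => (t : Fin (2 * g) → ℤ)) Subtype.val_injective
    (fun t => hpos t (LinearMap.mem_ker.mp t.2)) hk0
  set F : (Fin g → ℂ) → ℂ := fun z => N.Phi k z0 z *
    ∑' t : LinearMap.ker π, N.kap k z0 t * exp (-(k * N.P (T.vec t) z)) with hF
  have hFterm : ∀ z, F z = ∑' t : LinearMap.ker π, N.term k z0 z t := by
    intro z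
    simp only [hF]
    rw [← tsum_mul_left]
    exact tsum_congr fun t => (N.term_eq k z0 z t).symm
  refine ⟨F, ⟨(N.Phi_differentiable k z0).mul hdiff, fun w z => ?_⟩, ?_⟩
  · rw [hFterm, hFterm, pow_val]
    have hw : π (w - π w) = 0 := by
      rw [map_sub, hπ' _ (hπ w), sub_self]
    have h1 : ∀ t : LinearMap.ker π, N.term k z0 (z + T.vec w) t =
        N.val w z ^ k * N.term k z0 z ((t + ⟨w - π w, LinearMap.mem_ker.mpr hw⟩ :
          LinearMap.ker π) : Fin (2 * g) → ℤ) := by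
      intro t
      rw [term_translate]
      congr 1
      have h2 : (t : Fin (2 * g) → ℤ) + w = ((t + ⟨w - π w, LinearMap.mem_ker.mpr hw⟩ :
          LinearMap.ker π) : Fin (2 * g) → ℤ) + π w := by
        simp only [Submodule.coe_add]
        abel
      rw [h2, N.term_add_null hq ht k z0 z _ (hπ w)]
    rw [tsum_congr h1, tsum_mul_left]
    congr 1
    exact (Equiv.addRight (⟨w - π w, LinearMap.mem_ker.mpr hw⟩ : LinearMap.ker π)).tsum_eq
      (fun t => N.term k z0 z (t : Fin (2 * g) → ℤ))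
  · simp only [hF]
    apply mul_ne_zero (N.Phi_ne_zero k z0 z0)
    intro hzero
    set a : LinearMap.ker π → ℂ := fun t => N.kap k z0 t * exp (-(k * N.P (T.vec t) z0)) with ha
    have hnorm : ∀ t, ‖a t‖ = Real.exp (-(k / 2 * (N.P (T.vec t) (T.vec t)).re)) := by
      intro t
      simp only [ha]
      rw [norm_mul, norm_kap, norm_exp, ← Real.exp_add]
      congr 1
      have h1 : ((-((k : ℂ) * N.P (T.vec t) z0))).re = -(k * (N.P z0 (T.vec t)).re) := by
        have h2 : ((k : ℂ)) = ((k : ℝ) : ℂ) := by simp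
        rw [N.P_conj z0 (T.vec t), neg_re, h2, re_ofReal_mul, conj_re]
      rw [h1]
      ring
    have ha0 : ‖a 0‖ = 1 := by
      rw [hnorm]
      have : N.P (T.vec ((0 : LinearMap.ker π) : Fin (2 * g) → ℤ))
          (T.vec ((0 : LinearMap.ker π) : Fin (2 * g) → ℤ)) = 0 := by
        rw [Submodule.coe_zero, T.vec_zero']
        exact (N.q_eq_zero_iff 0).mp N.q_zero
      rw [this]
      simp
    have hsplit := (hsum z0).tsum_eq_add_tsum_ite (0 : LinearMap.ker π)
    have hle : ‖∑' t, ite (t = 0) 0 (a t)‖ ≤ Real.exp (-(n0 * (c / 2))) * B := by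
      have h1 : ∀ t : LinearMap.ker π, ‖ite (t = 0) 0 (a t)‖ ≤
          Real.exp (-(n0 * (c / 2))) * Real.exp (-(c / 2 * ‖(t : Fin (2 * g) → ℤ)‖ ^ 2)) := by
        intro t
        by_cases h0 : t = 0
        · rw [if_pos h0, norm_zero]
          positivity
        · rw [if_neg h0, hnorm, ← Real.exp_add]
          apply Real.exp_le_exp.mpr
          have h2 := hpos t (LinearMap.mem_ker.mp t.2)
          have h3 : (1 : ℝ) ≤ ‖(t : Fin (2 * g) → ℤ)‖ ^ 2 := by
            have h4 : (t : Fin (2 * g) → ℤ) ≠ 0 := fun h => h0 (Subtype.ext h)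
            have := one_le_norm_int h4
            nlinarith
          have h5 : ((n0 : ℝ) + 1) ≤ k := by exact_mod_cast hk
          have h6 : (k : ℝ) / 2 * (c * ‖(t : Fin (2 * g) → ℤ)‖ ^ 2) ≤
              k / 2 * (N.P (T.vec t) (T.vec t)).re := by gcongr
          have h7 : ((n0 : ℝ) + 1) / 2 * (c * ‖(t : Fin (2 * g) → ℤ)‖ ^ 2) ≤
              (k : ℝ) / 2 * (c * ‖(t : Fin (2 * g) → ℤ)‖ ^ 2) := by gcongr
          have h8 : (n0 : ℝ) / 2 * (c * 1) ≤ (n0 : ℝ) / 2 * (c * ‖(t : Fin (2 * g) → ℤ)‖ ^ 2) := by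
            gcongr
          linarith
      have h2 : Summable fun t : LinearMap.ker π => Real.exp (-(n0 * (c / 2))) *
          Real.exp (-(c / 2 * ‖(t : Fin (2 * g) → ℤ)‖ ^ 2)) := hBs.mul_left _
      calc ‖∑' t, ite (t = 0) 0 (a t)‖ ≤ ∑' t : LinearMap.ker π, Real.exp (-(n0 * (c / 2))) *
          Real.exp (-(c / 2 * ‖(t : Fin (2 * g) → ℤ)‖ ^ 2)) :=
            tsum_of_norm_bounded h2.hasSum h1
        _ = _ := by rw [tsum_mul_left]
    have hzero' : ∑' t, a t = 0 := hzero
    rw [hsplit] at hzero'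
    have h1 : a 0 = -∑' t, ite (t = 0) 0 (a t) := eq_neg_of_add_eq_zero_left hzero'
    have h2 := congrArg norm h1
    rw [norm_neg, ha0] at h2
    have h3 := hn0 n0 le_rfl
    linarith

end Factor

end Vale.Agent.P270
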