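import Vale.Agent.P270.Torus.Sections
import Vale.Agent.P270.Torus.Ample
import Vale.Agent.P270.Toric.Final

open Complex

namespace Vale.Agent.P270

variable {g : ℕ} {T : Torus g}

theorem ch'_eq (N : Factor T) (u : Fin (2 * g) → ℤ) : ch' N u = N.ch u := by
  unfold ch' Factor.ch
  congr 1
  ext k
  simp

theorem trivOn'_iff (N : Factor T) (W : Set (Fin (2 * g) → ℤ)) : TrivOn' N W ↔ N.TrivOn W := by
  unfold TrivOn' Factor.TrivOn
  simp only [ch'_eq]
  rfl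

theorem norm_sq_le_sum (x : Fin g → ℂ) : ‖x‖ ^ 2 ≤ ∑ k, ‖x k‖ ^ 2 := by
  have h0 : 0 ≤ ∑ k, ‖x k‖ ^ 2 := Finset.sum_nonneg fun k _ => by positivity
  have h1 : ‖x‖ ≤ Real.sqrt (∑ k, ‖x k‖ ^ 2) := by
    rw [pi_norm_le_iff_of_nonneg (Real.sqrt_nonneg _)]
    intro k
    apply Real.le_sqrt_of_sq_le
    exact Finset.single_le_sum (f := fun k => ‖x k‖ ^ 2) (fun k _ => by positivity)
      (Finset.mem_univ k)
  calc ‖x‖ ^ 2 ≤ Real.sqrt (∑ k, ‖x k‖ ^ 2) ^ 2 := by gcongr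
    _ = _ := Real.sq_sqrt h0

theorem sum_le_norm_sq (x : Fin g → ℂ) : ∑ k, ‖x k‖ ^ 2 ≤ g * ‖x‖ ^ 2 := by
  calc ∑ k, ‖x k‖ ^ 2 ≤ ∑ _k : Fin g, ‖x‖ ^ 2 := by
        refine Finset.sum_le_sum fun k _ => ?_
        gcongr
        exact norm_le_pi_norm x k
    _ = _ := by simp

/-- The facts on line bundles on complex tori. -/
noncomputable def torusTheory (T : Torus g) : TorusTheory T where
  q := Factor.q
  q_mul := Factor.q_mul
  nonneg := fun N f hf hne x => Factor.IsEff.q_nonneg (N := N) ⟨f, hf, hne⟩ x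
  flat := fun P hP x => Factor.q_flat hP x
  bound := fun N => by
    obtain ⟨C, hC, h⟩ := N.exists_q_le
    refine ⟨C, fun x => (h x).trans ?_⟩
    gcongr
    exact norm_sq_le_sum x
  ample := fun hT => by
    obtain ⟨A, c, hc, h⟩ := hT.exists_ample
    refine ⟨A, c / (g + 1), by positivity, fun x => ?_⟩
    refine le_trans ?_ (h x)
    rw [div_mul_eq_mul_div, div_le_iff₀ (by positivity)]
    have h1 := sum_le_norm_sq x
    have h2 : (0 : ℝ) ≤ ‖x‖ ^ 2 := by positivity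
    calc c * ∑ k, ‖x k‖ ^ 2 ≤ c * (g * ‖x‖ ^ 2) := by gcongr
      _ ≤ c * ‖x‖ ^ 2 * (g + 1) := by nlinarith
  triv := fun E f hf hne => (trivOn'_iff E _).mpr (Factor.IsEff.trivOn (N := E) ⟨f, hf, hne⟩)
  exist := fun N hq ht => by
    obtain ⟨k0, hk0, h⟩ := N.exists_pow_sections hq ((trivOn'_iff N _).mp ht)
    exact ⟨k0, hk0, fun k hk z => h k hk z⟩
  ext := fun N hq => by
    obtain ⟨P, hP, h⟩ := N.exists_flat_twist hq
    exact ⟨P, hP, fun u hu => by rw [ch'_eq]; exact h u hu⟩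

end Vale.Agent.P270
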