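import Vale.Agent.P270.Torus.Rational
import Vale.Agent.P270.Torus.Gauss
import Mathlib.Analysis.Calculus.SmoothSeries
import Mathlib.LinearAlgebra.Matrix.ToLin

open Complex

namespace Vale.Agent.P270

variable {g : ℕ} {T : Torus g}

namespace Factor

variable (N : Factor T)

theorem continuous_P_self : Continuous fun x => N.P x x := by
  unfold P A dotProduct
  have h1 := N.continuous_lam
  have h2 : Continuous fun x : Fin g → ℂ => I • x := by fun_prop
  have h3 : Continuous fun x : Fin g → ℂ => N.lam (I • x) := h1.comp h2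
  fun_prop

/-- The form is positive definite on a complement of the null lattice. -/
theorem exists_pos_on_compl (hq : ∀ x, 0 ≤ N.q x)
    {π : (Fin (2 * g) → ℤ) →ₗ[ℤ] (Fin (2 * g) → ℤ)} (hπ : ∀ u ∈ N.null hq, π u = u) :
    ∃ c : ℝ, 0 < c ∧ ∀ u, π u = 0 → c * ‖u‖ ^ 2 ≤ (N.P (T.vec u) (T.vec u)).re := by
  set Mx := LinearMap.toMatrix' π with hMx
  set πR : (Fin (2 * g) → ℝ) →ₗ[ℝ] (Fin (2 * g) → ℝ) :=
    Matrix.toLin' (Mx.map (Int.cast : ℤ → ℝ)) with hπR
  have hπR_int : ∀ u : Fin (2 * g) → ℤ, πR (fun i => (u i : ℝ)) = fun i => ((π u) i : ℝ) := by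
    intro u
    ext j
    have h1 : π u = Mx.mulVec u := (LinearMap.toMatrix'_mulVec π u).symm
    rw [h1, hπR, Matrix.toLin'_apply]
    simp [Matrix.mulVec, dotProduct]
  have hfix : ∀ x ∈ Submodule.span ℝ (T.vec '' (N.null hq : Set (Fin (2 * g) → ℤ))),
      πR (T.equiv.symm x) = T.equiv.symm x := by
    intro x hx
    induction hx using Submodule.span_induction with
    | mem x h =>
      obtain ⟨u, hu, rfl⟩ := h
      rw [T.equiv_symm_vec, hπR_int, hπ u hu]
    | zero => simp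
    | add x y _ _ hx hy => rw [map_add, map_add, hx, hy]
    | smul t x _ hx => rw [map_smul, map_smul, hx]
  set Q : (Fin (2 * g) → ℝ) → ℝ := fun a => (N.P (T.equiv a) (T.equiv a)).re with hQ
  have hQc : Continuous Q := by
    have h1 : Continuous T.equiv := LinearMap.continuous_of_finiteDimensional T.equiv.toLinearMap
    exact Complex.continuous_re.comp (N.continuous_P_self.comp h1)
  have hQ0 : ∀ a, 0 ≤ Q a := fun a => (N.q_nonneg_iff _).mp (hq _)
  have hQpos : ∀ a, πR a = 0 → a ≠ 0 → 0 < Q a := by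
    intro a ha hne
    rcases (hQ0 a).lt_or_eq with h | h
    · exact h
    · exfalso
      apply hne
      have h1 : N.q (T.equiv a) = 0 := by
        unfold q
        rw [← show Q a = (N.P (T.equiv a) (T.equiv a)).re from rfl, ← h, zero_div]
      have h2 := hfix _ (N.mem_span_null hq h1)
      rw [LinearEquiv.symm_apply_apply, ha] at h2
      exact h2.symm
  have hQs : ∀ (t : ℝ) a, Q (t • a) = t ^ 2 * Q a := by
    intro t a
    simp only [hQ]
    have h1 : T.equiv (t • a) = (t : ℂ) • T.equiv a := by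
      rw [map_smul]
      ext k
      simp
    rw [h1, P_smul_left, P_smul_right, conj_ofReal, ← mul_assoc, ← ofReal_mul, re_ofReal_mul]
    ring
  have hcomp : IsCompact {a : Fin (2 * g) → ℝ | ‖a‖ = 1 ∧ πR a = 0} := by
    apply Metric.isCompact_of_isClosed_isBounded
    · have h1 : Continuous πR := LinearMap.continuous_of_finiteDimensional πR
      exact (isClosed_eq continuous_norm continuous_const).inter (isClosed_eq h1 continuous_const)
    · apply (Metric.isBounded_closedBall (x := (0 : Fin (2 * g) → ℝ)) (r := 1)).subset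
      intro a ha
      simpa using ha.1.le
  have key : ∃ c : ℝ, 0 < c ∧ ∀ a : Fin (2 * g) → ℝ, ‖a‖ = 1 → πR a = 0 → c ≤ Q a := by
    by_cases hne : {a : Fin (2 * g) → ℝ | ‖a‖ = 1 ∧ πR a = 0}.Nonempty
    · obtain ⟨a0, ha0, hmin⟩ := hcomp.exists_isMinOn hne hQc.continuousOn
      refine ⟨Q a0, hQpos a0 ha0.2 ?_, fun a h1 h2 => hmin ⟨h1, h2⟩⟩
      intro h
      have := ha0.1
      rw [h, norm_zero] at this
      exact zero_ne_one this
    · exact ⟨1, one_pos, fun a h1 h2 => absurd ⟨a, h1, h2⟩ hne⟩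
  obtain ⟨c, hc, hmin⟩ := key
  refine ⟨c, hc, fun u hu => ?_⟩
  have hrw : (N.P (T.vec u) (T.vec u)).re = Q (fun i => (u i : ℝ)) := by
    simp only [hQ]
    rw [T.equiv_int]
  rw [hrw]
  by_cases h0 : u = 0
  · subst h0
    rw [norm_zero]
    simpa using hQ0 _
  · have hn : 0 < ‖u‖ := norm_pos_iff.mpr h0
    set a : Fin (2 * g) → ℝ := (‖u‖)⁻¹ • (fun i => (u i : ℝ)) with ha
    have h1 : ‖a‖ = 1 := by
      rw [ha, norm_smul, norm_intCast_pi, norm_inv, norm_norm, inv_mul_cancel₀ hn.ne']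
    have h2 : πR a = 0 := by
      rw [ha, map_smul, hπR_int, hu]
      ext i
      simp
    have h3 : (fun i => (u i : ℝ)) = ‖u‖ • a := by
      rw [ha, smul_smul, mul_inv_cancel₀ hn.ne', one_smul]
    rw [h3, hQs, mul_comm]
    gcongr
    exact hmin a h1 h2

theorem q_eq_zero_of_mem_span (hq : ∀ x, 0 ≤ N.q x) {w : Fin g → ℂ}
    (hw : w ∈ Submodule.span ℝ (T.vec '' (N.null hq : Set (Fin (2 * g) → ℤ)))) : N.q w = 0 := by
  induction hw using Submodule.span_induction with
  | mem w h => obtain ⟨v, hv, rfl⟩ := h; exact hv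
  | zero => exact N.q_zero
  | add a b _ _ ha hb => exact N.q_add_null hq ha hb
  | smul t a _ ha =>
    have := N.q_smul_null hq ha (t : ℂ)
    have h5 : ((t : ℂ) • a) = t • a := by ext k; simp
    rwa [h5] at this

/-- On the null lattice a trivialising linear form may be replaced by the canonical one. -/
theorem ch_eq_exp_G (hq : ∀ x, 0 ≤ N.q x) (ht : N.TrivOn {u | N.q (T.vec u) = 0})
    {u : Fin (2 * g) → ℤ} (hu : N.q (T.vec u) = 0) : N.ch u = exp (N.G (T.vec u)) := by
  obtain ⟨γ, hγ⟩ := ht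
  let L : (Fin g → ℂ) →ₗ[ℝ] ℝ :=
    { toFun := fun x => (γ ⬝ᵥ x).re
      map_add' := fun x y => by rw [dotProduct_add, add_re]
      map_smul' := fun t x => by
        rw [dotProduct_smul, RingHom.id_apply, Complex.smul_re] }
  have h1 : ∀ x, N.q x = 0 → (γ ⬝ᵥ x).re = N.M x := by
    intro x hx
    have h2 := N.mem_span_null hq hx
    induction h2 using Submodule.span_induction with
    | mem x h =>
      obtain ⟨v, hv, rfl⟩ := h
      have h3 := congrArg (fun w : ℂ => ‖w‖) (hγ v hv)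
      simp only [norm_exp] at h3
      rw [norm_ch] at h3
      rw [M_vec]
      exact (Real.exp_injective h3).symm
    | zero => simp
    | add x y hx' hy' ihx ihy =>
      have e1 : (γ ⬝ᵥ (x + y)).re = L (x + y) := rfl
      have hxq : N.q x = 0 := N.q_eq_zero_of_mem_span hq hx'
      have hyq : N.q y = 0 := N.q_eq_zero_of_mem_span hq hy'
      rw [e1, map_add, map_add, ← ihx hxq, ← ihy hyq]
      rfl
    | smul t x hx' ihx =>
      have e1 : (γ ⬝ᵥ (t • x)).re = L (t • x) := rfl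
      have hxq : N.q x = 0 := N.q_eq_zero_of_mem_span hq hx'
      rw [e1, map_smul, map_smul, ← ihx hxq]
      rfl
  rw [hγ u hu]
  congr 1
  apply Complex.ext
  · rw [h1 _ hu, G_re]
  · have h2 := h1 (I • T.vec u) (N.q_smul_null hq hu I)
    rw [dotProduct_smul, smul_eq_mul] at h2
    unfold G
    simp only [mul_re, I_re, I_im, sub_im, ofReal_im, mul_im, ofReal_re] at h2 ⊢
    linarith

/-- The Gaussian (coherent state) centred at `z0`. -/
noncomputable def Phi (k : ℕ) (z0 y : Fin g → ℂ) : ℂ :=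
  exp (k * (N.S y y / 2 + N.G y + N.P z0 y))

/-- The coefficients of the theta series. -/
noncomputable def kap (k : ℕ) (z0 : Fin g → ℂ) (u : Fin (2 * g) → ℤ) : ℂ :=
  exp (k * (-N.c u + N.S (T.vec u) (T.vec u) / 2 + N.G (T.vec u) + N.P z0 (T.vec u)))

/-- The terms of the Poincaré series. -/
noncomputable def term (k : ℕ) (z0 z : Fin g → ℂ) (t : Fin (2 * g) → ℤ) : ℂ :=
  (N.val t z ^ k)⁻¹ * N.Phi k z0 (z + T.vec t)

theorem term_eq (k : ℕ) (z0 z : Fin g → ℂ) (t : Fin (2 * g) → ℤ) :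
    N.term k z0 z t = N.Phi k z0 z * (N.kap k z0 t * exp (-(k * N.P (T.vec t) z))) := by
  unfold term Phi kap
  rw [val_eq_A, ← exp_nat_mul, ← exp_neg, ← exp_add, ← exp_add, ← exp_add]
  congr 1
  rw [A_eq, S_add_left, S_add_right, S_add_right, G_add, P_add_right, N.S_symm (T.vec t) z]
  ring

theorem norm_kap (k : ℕ) (z0 : Fin g → ℂ) (u : Fin (2 * g) → ℤ) :
    ‖N.kap k z0 u‖ =
      Real.exp (k * (-(N.P (T.vec u) (T.vec u)).re / 2 + (N.P z0 (T.vec u)).re)) := by
  unfold kap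
  rw [norm_exp]
  congr 1
  have h1 : N.m u = N.M (T.vec u) := (N.M_vec u).symm
  unfold m at h1
  rw [A_eq, add_re] at h1
  have h2 : ((k : ℂ) * (-N.c u + N.S (T.vec u) (T.vec u) / 2 + N.G (T.vec u) +
      N.P z0 (T.vec u))).re = (k : ℝ) * (-(N.c u).re + (N.S (T.vec u) (T.vec u)).re / 2 +
      N.M (T.vec u) + (N.P z0 (T.vec u)).re) := by
    rw [← G_re]
    have : ((k : ℂ)) = ((k : ℝ) : ℂ) := by simp
    rw [this, re_ofReal_mul]
    simp only [add_re, neg_re, div_ofNat_re]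
  rw [h2]
  congr 1
  linarith

theorem Phi_differentiable (k : ℕ) (z0 : Fin g → ℂ) : Differentiable ℂ (N.Phi k z0) := by
  unfold Phi
  have h1 := N.S_differentiable
  have h2 := N.G_differentiable
  have h3 : Differentiable ℂ (N.P z0) := by
    let L : (Fin g → ℂ) →ₗ[ℂ] ℂ :=
      { toFun := N.P z0
        map_add' := N.P_add_right z0
        map_smul' := fun t y => N.P_smul_right t z0 y }
    exact (LinearMap.toContinuousLinearMap L).differentiable
  fun_prop

theorem Phi_ne_zero (k : ℕ) (z0 y : Fin g → ℂ) : N.Phi k z0 y ≠ 0 := exp_ne_zero _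

/-- `P x` as a continuous linear map. -/
noncomputable def PL (x : Fin g → ℂ) : (Fin g → ℂ) →L[ℂ] ℂ :=
  LinearMap.toContinuousLinearMap
    { toFun := N.P x
      map_add' := N.P_add_right x
      map_smul' := fun t y => N.P_smul_right t x y }

theorem PL_apply (x y : Fin g → ℂ) : N.PL x y = N.P x y := rfl

theorem exists_norm_vec_le (T : Torus g) : ∃ C : ℝ, 0 < C ∧ ∀ u, ‖T.vec u‖ ≤ C * ‖u‖ := by
  obtain ⟨C, hC, h⟩ := (LinearMap.toContinuousLinearMap T.equiv.toLinearMap).bound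
  refine ⟨C, hC, fun u => ?_⟩
  have := h (fun i => (u i : ℝ))
  rw [norm_intCast_pi] at this
  have h2 : (LinearMap.toContinuousLinearMap T.equiv.toLinearMap) (fun i => (u i : ℝ)) = T.vec u := by
    change T.equiv _ = _
    rw [T.equiv_int]
  rwa [h2] at this


/-- The theta series is entire. -/
theorem tsum_differentiable {ι : Type*} (k : ℕ) (z0 : Fin g → ℂ) {c : ℝ} (hc : 0 < c)
    (j : ι → Fin (2 * g) → ℤ) (hj : Function.Injective j)
    (hpos : ∀ t, c * ‖j t‖ ^ 2 ≤ (N.P (T.vec (j t)) (T.vec (j t))).re) (hk : 0 < k) :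
    (∀ z, Summable fun t => N.kap k z0 (j t) * exp (-(k * N.P (T.vec (j t)) z))) ∧
    Differentiable ℂ fun z => ∑' t, N.kap k z0 (j t) * exp (-(k * N.P (T.vec (j t)) z)) := by
  obtain ⟨C, hC, hCb⟩ := N.exists_norm_SP_le
  obtain ⟨D, hD, hDb⟩ := exists_norm_vec_le T
  have hk' : (0 : ℝ) < k := by exact_mod_cast hk
  have hterm : ∀ (R : ℝ) (t : ι) (z : Fin g → ℂ), ‖z‖ ≤ R →
      ‖N.kap k z0 (j t) * exp (-(k * N.P (T.vec (j t)) z))‖ ≤
        Real.exp (-(k * c / 2 * ‖j t‖ ^ 2) + (k * C * ‖z0‖ * D + k * C * D * R) * ‖j t‖) := by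
    intro R t z hz
    have hR : 0 ≤ R := (norm_nonneg z).trans hz
    rw [norm_mul, norm_kap, norm_exp, ← Real.exp_add]
    apply Real.exp_le_exp.mpr
    have h1 : (N.P z0 (T.vec (j t))).re ≤ C * (‖z0‖ * (D * ‖j t‖)) := by
      calc (N.P z0 (T.vec (j t))).re ≤ ‖N.P z0 (T.vec (j t))‖ := re_le_norm _
        _ ≤ C * (‖z0‖ * ‖T.vec (j t)‖) := (hCb _ _).2
        _ ≤ _ := by gcongr; exact hDb _
    have h2 : -(N.P (T.vec (j t)) z).re ≤ C * ((D * ‖j t‖) * R) := by
      calc -(N.P (T.vec (j t)) z).re ≤ ‖N.P (T.vec (j t)) z‖ := by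
            rw [← neg_re, ← norm_neg]
            exact re_le_norm _
        _ ≤ C * (‖T.vec (j t)‖ * ‖z‖) := (hCb _ _).2
        _ ≤ _ := by gcongr; exact hDb _
    have h3 : (-((k : ℂ) * N.P (T.vec (j t)) z)).re = k * (-(N.P (T.vec (j t)) z).re) := by
      have : ((k : ℂ)) = ((k : ℝ) : ℂ) := by simp
      rw [neg_re, this, re_ofReal_mul]
      ring
    rw [h3]
    have h4 := hpos t
    have h5 : (k : ℝ) * (-(N.P (T.vec (j t)) (T.vec (j t))).re / 2 + (N.P z0 (T.vec (j t))).re) ≤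
        k * (-(c * ‖j t‖ ^ 2) / 2 + C * (‖z0‖ * (D * ‖j t‖))) := by
      gcongr
    have h6 : (k : ℝ) * (-(N.P (T.vec (j t)) z).re) ≤ k * (C * ((D * ‖j t‖) * R)) := by
      gcongr
    calc _ ≤ k * (-(c * ‖j t‖ ^ 2) / 2 + C * (‖z0‖ * (D * ‖j t‖))) +
          k * (C * ((D * ‖j t‖) * R)) := add_le_add h5 h6
      _ = _ := by ring
  have hsumR : ∀ b : ℝ, Summable fun t => Real.exp (-(k * c / 2 * ‖j t‖ ^ 2) + b * ‖j t‖) := by
    intro b
    exact (summable_gauss (2 * g) (a := k * c / 2) (by positivity) b).comp_injective hj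
  have hsum : ∀ z, Summable fun t => N.kap k z0 (j t) * exp (-(k * N.P (T.vec (j t)) z)) := by
    intro z
    exact Summable.of_norm_bounded (hsumR _) fun t => hterm ‖z‖ t z le_rfl
  refine ⟨hsum, fun z => ?_⟩
  set R := ‖z‖ + 1 with hR
  have hR0 : 0 < R := by positivity
  have hder : ∀ (t : ι) (x : Fin g → ℂ), HasFDerivAt
      (fun z => N.kap k z0 (j t) * exp (-(k * N.P (T.vec (j t)) z)))
      (N.kap k z0 (j t) • (exp (-(k * N.P (T.vec (j t)) x)) • (-((k : ℂ) • N.PL (T.vec (j t)))))) x := by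
    intro t x
    have h1 : HasFDerivAt (fun z => -((k : ℂ) * N.P (T.vec (j t)) z))
        (-((k : ℂ) • N.PL (T.vec (j t)))) x :=
      (((N.PL (T.vec (j t))).hasFDerivAt).const_mul (k : ℂ)).neg
    exact h1.cexp.const_mul _
  have hPL : ∀ u, ‖N.PL (T.vec u)‖ ≤ C * (D * ‖u‖) := by
    intro u
    apply ContinuousLinearMap.opNorm_le_bound _ (by positivity)
    intro y
    rw [PL_apply]
    calc _ ≤ C * (‖T.vec u‖ * ‖y‖) := (hCb _ _).2
      _ ≤ C * ((D * ‖u‖) * ‖y‖) := by gcongr; exact hDb _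
      _ = _ := by ring
  have hbound : ∀ (t : ι) (x : Fin g → ℂ), x ∈ Metric.ball (0 : Fin g → ℂ) R →
      ‖N.kap k z0 (j t) • (exp (-(k * N.P (T.vec (j t)) x)) • (-((k : ℂ) • N.PL (T.vec (j t)))))‖ ≤
      k * C * D * Real.exp (-(k * c / 2 * ‖j t‖ ^ 2) +
        (k * C * ‖z0‖ * D + k * C * D * R + 1) * ‖j t‖) := by
    intro t x hx
    have hx' : ‖x‖ ≤ R := by
      rw [mem_ball_zero_iff] at hx
      exact hx.le
    rw [smul_smul, norm_smul, norm_neg, norm_smul]
    have h1 := hterm R t x hx'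
    have h2 : ‖(k : ℂ)‖ = k := by simp
    have h3 : ‖j t‖ ≤ Real.exp ‖j t‖ := by
      have := Real.add_one_le_exp ‖j t‖
      linarith
    calc _ ≤ Real.exp (-(k * c / 2 * ‖j t‖ ^ 2) + (k * C * ‖z0‖ * D + k * C * D * R) * ‖j t‖) *
          (k * (C * (D * Real.exp ‖j t‖))) := by
          rw [h2]
          gcongr
          exact (hPL _).trans (by gcongr)
      _ = k * C * D * (Real.exp (-(k * c / 2 * ‖j t‖ ^ 2) +
          (k * C * ‖z0‖ * D + k * C * D * R) * ‖j t‖) * Real.exp ‖j t‖) := by ring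
      _ = _ := by
          rw [← Real.exp_add]
          congr 2
          ring
  have hz : z ∈ Metric.ball (0 : Fin g → ℂ) R := by
    rw [mem_ball_zero_iff]
    linarith
  have hconv : IsPreconnected (Metric.ball (0 : Fin g → ℂ) R) :=
    (convex_ball (0 : Fin g → ℂ) R).isPreconnected
  exact (hasFDerivAt_tsum_of_isPreconnected ((hsumR _).mul_left (k * C * D)) Metric.isOpen_ball
    hconv (fun t x _ => hder t x) hbound hz (hsum z) hz).differentiableAt

end Factor

end Vale.Agent.P270
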